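import Vale.Agent.P354I.Core2

/-!
BK2: the global double null form of the Kerr interior, with parameters. Definitions and exact
statements of the sub-blocks. The coefficient functions G i have the arguments (p, s, z):
p = (M, a, r0), s = exp (- k (t + tau)), z the height on the sphere.
-/

open scoped ContDiff
open Set Filter Topology

noncomputable section

namespace Vale.Agent.P354RG

open Vale.Agent.P354n (R4)
open Vale.Agent.P354H (X3 e)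
open Vale.Agent.P354I (P3 X Dat ee dT dP Geo Eqv Wi pm dil)
open Vale.Agent.P354J (pb PDy M3)
open Vale.Agent.P354R (bg nrm chr Vac hK kK kap ht dht alp)

/-- The arguments (p, s, z). -/
abbrev Y3 : Type := P3 × ℝ × ℝ

/-- The coefficients for bg: with d = exp (- k t) the product d exp (- k tau) is s. -/
def Fx (G : ℕ → Y3 → ℝ) (p : P3) (i : ℕ) (c : ℝ × ℝ × ℝ) : ℝ := G i (p, c.1 * c.2.1, c.2.2)

/-- The derivatives in s and in z. -/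
def gs (f : Y3 → ℝ) (c : Y3) : ℝ := fderiv ℝ f c (0, 1, 0)
def gz (f : Y3 → ℝ) (c : Y3) : ℝ := fderiv ℝ f c (0, 0, 1)

/-- The metric s G0 (- dtau^2 + dx^2) + gam (dtheta - s G4 rot dv)^2,
gam = G1 round + G2 dz^2 + 2 G3 alp dz, is Kerr with the parameters p. -/
structure IsG (p0 : P3) (k ε0 δ : ℝ) (G : ℕ → Y3 → ℝ) : Prop where
  pos0 : 0 < k ∧ 0 < ε0 ∧ 0 < δ
  smooth : ∀ i, ContDiff ℝ ∞ (G i)
  pos : ∀ p s, ∀ z ∈ Icc (-1 : ℝ) 1, 0 < G 0 (p, s, z) ∧ 0 < G 1 (p, s, z) ∧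
    0 < G 1 (p, s, z) * (G 1 (p, s, z) + (1 - z ^ 2) * G 2 (p, s, z)) -
      (1 - z ^ 2) ^ 2 * G 3 (p, s, z) ^ 2
  even : ∀ p s z, G 0 (p, s, -z) = G 0 (p, s, z) ∧ G 1 (p, s, -z) = G 1 (p, s, z) ∧
    G 2 (p, s, -z) = G 2 (p, s, z) ∧ G 3 (p, s, -z) = -G 3 (p, s, z) ∧
    G 4 (p, s, -z) = G 4 (p, s, z)
  par : ∀ p ∈ Metric.ball p0 ε0, p.2.1 ≠ 0 ∧ |p.2.1| < p.1 ∧ P354I.rm p.1 p.2.1 < p.2.2 ∧
    p.2.2 < P354I.rp p.1 p.2.1
  vac : ∀ p ∈ Metric.ball p0 ε0, ∀ t σ, Vac (bg k (Real.exp (-k * t)) (Fx G p) σ)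
    {w | Real.exp (-k * t) * Real.exp (-k * w.1) < 1 + δ}
  first : ∀ p ∈ Metric.ball p0 ε0, ∀ σ (z A B : X3), bg k 1 (Fx G p) σ (0, z) (0, A) (0, B) =
    hK p.1 p.2.1 p.2.2 σ z (k / kap p.1 p.2.1 * A.1, A.2) (k / kap p.1 p.2.1 * B.1, B.2)
  second : ∀ p ∈ Metric.ball p0 ε0, ∀ σ (z A B : X3),
    -chr (bg k 1 (Fx G p) σ) (0, z) (0, A) (0, B) (nrm k 1 (Fx G p) σ (0, z)) =
      kK p.1 p.2.1 p.2.2 σ z (k / kap p.1 p.2.1 * A.1, A.2) (k / kap p.1 p.2.1 * B.1, B.2)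
  dphi : ∃ s1 > 0, ∀ p ∈ Metric.ball p0 ε0, ∀ s ∈ Icc 0 s1, gs (G 1) (p, s, 0) < 0

/-- GB: the global double null form exists. -/
def GB : Prop :=
  ∀ M a r0 : ℝ, a ≠ 0 → |a| < M → P354I.rm M a < r0 → r0 < P354I.rp M a →
    ∃ ε0 δ G, IsG (M, a, r0) (kap M a) ε0 δ G

/-! ### The data on the slices -/

/-- A symmetric form from six coefficients; T = dt, Z = dz, P = sin^2 theta dphi on the two
vectors, R the round metric. -/
def frm (c : ℕ → ℝ) (T Z P T' Z' P' R : ℝ) : ℝ :=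
  c 0 * (T * T') + c 1 * R + c 2 * (Z * Z') + c 3 * (P * Z' + Z * P') + c 4 * (T * P' + P * T') +
    c 5 * (T * Z' + Z * T')

/-- The height and its differential on the cylinder. -/
def zh (y : X) : ℝ := y 2 / ‖y‖
def dZ (y v : X) : ℝ := v 2 / ‖y‖ - zh y * dT y v

/-- The stationary axisymmetric tensor with the coefficients c n (height), on the cylinder and in
a chart. -/
def ten (c : ℕ → ℝ → ℝ) (y : X) : M3 := Matrix.of fun i j =>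
  frm (fun n => c n (zh y)) (dT y (ee i)) (dZ y (ee i)) (dP y (ee i)) (dT y (ee j)) (dZ y (ee j))
    (dP y (ee j)) (P354I.rnd y (ee i) (ee j))
def tenC (c : ℕ → ℝ → ℝ) (σ : Bool) (z A B : X3) : ℝ :=
  frm (fun n => c n (ht σ z.2)) A.1 (dht σ z.2 A.2) (alp z.2 A.2) B.1 (dht σ z.2 B.2) (alp z.2 B.2)
    (P354R.rnd z.2 A.2 B.2)

/-- From the basis with dtheta - β rot dt to the basis with dtheta; w = 1 - z^2. -/
def unt (β w : ℝ) (c : ℕ → ℝ) : ℕ → ℝ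
  | 0 => c 0 + c 1 * β ^ 2 * w - 2 * c 4 * β * w
  | 4 => c 4 - β * c 1
  | 5 => c 5 - β * w * c 3
  | n => c n

/-- β = s G4, and the derivative in tau. -/
def bet (G : ℕ → Y3 → ℝ) (c : Y3) : ℝ := c.2.1 * G 4 c
def dt (k : ℝ) (f : Y3 → ℝ) (c : Y3) : ℝ := -(k * c.2.1) * gs f c

/-- The coefficients of h and of 2 Om K in the basis with dtheta - β rot dt. -/
def hH (G : ℕ → Y3 → ℝ) (c : Y3) : ℕ → ℝ
  | 0 => c.2.1 * G 0 c
  | 1 => G 1 c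
  | 2 => G 2 c
  | 3 => G 3 c
  | _ => 0
def kH (k : ℝ) (G : ℕ → Y3 → ℝ) (c : Y3) : ℕ → ℝ
  | 0 => dt k (fun c => c.2.1 * G 0 c) c
  | 1 => dt k (G 1) c
  | 2 => dt k (G 2) c + 2 * gz (bet G) c * G 3 c * (1 - c.2.2 ^ 2)
  | 3 => dt k (G 3) c + gz (bet G) c * G 1 c
  | 4 => -(dt k (bet G) c * G 1 c)
  | 5 => -(dt k (bet G) c * G 3 c * (1 - c.2.2 ^ 2))
  | _ => 0

/-- The coefficients of h and K. -/
def cH (G : ℕ → Y3 → ℝ) (n : ℕ) (c : Y3) : ℝ := unt (bet G c) (1 - c.2.2 ^ 2) (hH G c) n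
def cK (k : ℝ) (G : ℕ → Y3 → ℝ) (n : ℕ) (c : Y3) : ℝ :=
  unt (bet G c) (1 - c.2.2 ^ 2) (kH k G c) n / (2 * √(c.2.1 * G 0 c))

/-- The data on the slice of the time t. -/
def kd (k : ℝ) (G : ℕ → Y3 → ℝ) (p : P3) (t : ℝ) : Dat where
  h := ten fun n z => cH G n (p, Real.exp (-k * t), z)
  K := ten fun n z => cK k G n (p, Real.exp (-k * t), z)

/-- TEN: the tensors in the charts. -/
def TEN : Prop := ∀ c σ z i j, pb σ (ten c) z i j = tenC c σ z (e i) (e j)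

/-- KF: the fundamental forms of the slices of bg. -/
def KF : Prop :=
  ∀ (k d : ℝ) (G : ℕ → Y3 → ℝ) (p : P3) (σ : Bool) (τ : ℝ) (z A B : X3), 0 < d →
    (∀ i, ContDiff ℝ ∞ (G i)) → (∀ s, ∀ ζ ∈ Icc (-1 : ℝ) 1, 0 < G 0 (p, s, ζ)) →
    bg k d (Fx G p) σ (τ, z) (0, A) (0, B) =
      tenC (fun n ζ => cH G n (p, d * Real.exp (-k * τ), ζ)) σ z A B ∧
    -chr (bg k d (Fx G p) σ) (τ, z) (0, A) (0, B) (nrm k d (Fx G p) σ (τ, z)) =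
      tenC (fun n ζ => cK k G n (p, d * Real.exp (-k * τ), ζ)) σ z A B

/-- PDK: the data are smooth and Riemannian. -/
def PDK : Prop := ∀ p0 k ε0 δ G, IsG p0 k ε0 δ G → ∀ p t, PDy (kd k G p t)

/-- GEO: the fields geo and kcont of IsKF. -/
def GEO : Prop :=
  ∀ p0 k ε0 δ G, IsG p0 k ε0 δ G →
    (∀ T m, ∃ c > 0, ∃ B, ∀ p ∈ Metric.ball p0 ε0, ∀ t ∈ Icc 0 T, Geo c B m (kd k G p t)) ∧
    ∀ T m, ∀ η > 0, ∃ ε > 0, ∀ p ∈ Metric.ball p0 ε, ∀ t ∈ Icc 0 T,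
      pm 0 m (kd k G p t) (kd k G p0 t) ≤ ENNReal.ofReal η

/-- STA: the field start of IsKF. -/
def STA : Prop :=
  ∀ p0 k ε0 δ G, IsG p0 k ε0 δ G → ∀ p ∈ Metric.ball p0 ε0,
    Eqv (kd k G p 0) ((P354I.kerr p.1 p.2.1 p.2.2).pull (dil (k / kap p.1 p.2.1)))

/-- WIT: the field wit of IsKF. -/
def WIT : Prop :=
  ∀ p0 k ε0 δ G, IsG p0 k ε0 δ G → ∃ T1, ∀ p ∈ Metric.ball p0 ε0, ∀ t ≥ T1, Wi (kd k G p t)

end Vale.Agent.P354RG
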