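import Vale.Agent.P354RG.Iso
import Vale.Agent.P354RG.Defs

/-!
GB: the global double null form of the Kerr interior, with parameters.
-/

open scoped ContDiff
open Set Filter Topology

set_option linter.unusedSectionVars false

namespace Vale.Agent.P354RG

open Vale.Agent.P354n (R4)
open Vale.Agent.P354R Par
open Vale.Agent.P354I (P3)

lemma dz_par {f : R3 → ℝ} (hf : ContDiff ℝ ∞ f) {e : ℝ} (h : ∀ d s ζ, f (d, s, -ζ) = e * f (d, s, ζ))
    (d s ζ : ℝ) : dz f (d, s, -ζ) = -e * dz f (d, s, ζ) := by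
  have h1 := HasDerivAt.comp (h := fun t : ℝ => -t) ζ (hasDerivAt_dz (dAt hf (d, s, -ζ)))
    (hasDerivAt_neg ζ)
  simp only [Function.comp_def, h] at h1
  have h2 := h1.unique ((hasDerivAt_dz (dAt hf (d, s, ζ))).const_mul e)
  linarith

section

variable {E : Type} [NormedAddCommGroup E] [NormedSpace ℝ E] [FiniteDimensional ℝ E]
  {P : E → Par} {d : E → ℝ} {μ0 : E} {δ : ℝ} {S : E × ℝ × ℝ → W4}

/-- The coefficients as functions of (mu, s, zeta). -/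
noncomputable def JF (P : E → Par) (d : E → ℝ) (S : E × ℝ × ℝ → W4) (i : ℕ) (x : E × ℝ × ℝ) : ℝ :=
  (P x.1).ff (sl S x.1) i (d x.1, x.2)

def BX (μ0 : E) (δ : ℝ) : Set (E × ℝ × ℝ) :=
  {x | dist x.1 μ0 ≤ δ ∧ x.2.1 ∈ Ioo (-δ) (1 + δ) ∧ |x.2.2| < 1 + δ}

namespace Fam

variable (h : Fam P d μ0 δ S)
include h

lemma at' {x : E × ℝ × ℝ} (hx : x ∈ BX μ0 δ) :
    C0 (P x.1) (d x.1, δ) (sl S x.1) ∧ (d x.1, x.2) ∈ bx (d x.1, δ) :=
  ⟨(h.chr x.1 hx.1).2.1, rfl, hx.2⟩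

lemma JF_s (hP : SmP P) (hd : ContDiff ℝ ∞ d) (i : ℕ) :
    ContDiffOn ℝ ∞ (JF P d S i) (BX μ0 δ) := by
  have Q := hP.comp (g := fun x : E × ℝ × ℝ => x.1) contDiff_fst
  have q1 := Q.a
  have q2 := Q.R
  have s0 := h.smooth
  have dd : ∀ f : E × ℝ × ℝ → ℝ, ContDiff ℝ ∞ f →
      ContDiff ℝ ∞ fun x : E × ℝ × ℝ => dz (sl f x.1) (d x.1, x.2) := fun f hf => by
    simp only [dz_sl hf]
    exact (hf.fderiv_right (m := ∞) (by simp)).clm_apply contDiff_const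
  have a1 : ContDiff ℝ ∞ fun x : E × ℝ × ℝ => eta (sl S x.1) (d x.1, x.2) := s0.fst
  have a2 : ContDiff ℝ ∞ fun x : E × ℝ × ℝ => zz (sl S x.1) (d x.1, x.2) := s0.snd.fst
  have a3 : ContDiff ℝ ∞ fun x : E × ℝ × ℝ => pp (sl S x.1) (d x.1, x.2) := s0.snd.snd.fst
  have a4 : ContDiff ℝ ∞ fun x : E × ℝ × ℝ => (P x.1).rad (sl S x.1) (d x.1, x.2) :=
    Q.m.add ((contDiff_snd.fst.mul (hd.comp contDiff_fst)).mul a1)
  have b2 : ContDiff ℝ ∞ fun x : E × ℝ × ℝ => dz (zz (sl S x.1)) (d x.1, x.2) := dd _ s0.snd.fst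
  have b3 : ContDiff ℝ ∞ fun x : E × ℝ × ℝ => dz (pp (sl S x.1)) (d x.1, x.2) :=
    dd _ s0.snd.snd.fst
  have b4 : ContDiff ℝ ∞ fun x : E × ℝ × ℝ => dz (hh (sl S x.1)) (d x.1, x.2) :=
    dd _ s0.snd.snd.snd
  have c1 : ContDiff ℝ ∞ fun x : E × ℝ × ℝ => (P x.1).sg (sl S x.1) (d x.1, x.2) :=
    (a4.pow 2).add ((q1.pow 2).mul (a2.pow 2))
  have c2 : ContDiff ℝ ∞ fun x : E × ℝ × ℝ => (P x.1).aA (sl S x.1) (d x.1, x.2) := Q.Q2 a4 a2
  have c3 : ContDiff ℝ ∞ fun x : E × ℝ × ℝ => (P x.1).aQ (sl S x.1) (d x.1, x.2) :=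
    Q.Q2 a4 contDiff_snd.snd
  have c4 : ContDiff ℝ ∞ fun x : E × ℝ × ℝ => (P x.1).eE (sl S x.1) (d x.1, x.2) :=
    (q1.pow 2).div ((a3.pow 2).add (q1.pow 2)) fun x => ((P x.1).p2_pos _ _).ne'
  have c5 : ContDiff ℝ ∞ fun x : E × ℝ × ℝ => (P x.1).eT (sl S x.1) (d x.1, x.2) :=
    ((c4.mul a3).mul b3).div ((a3.pow 2).add (q1.pow 2)) fun x => ((P x.1).p2_pos _ _).ne'
  have c6 : ContDiff ℝ ∞ fun x : E × ℝ × ℝ => (P x.1).eB (sl S x.1) (d x.1, x.2) := by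
    unfold eB
    fun_prop
  have c7 := Q.Dl a4
  have f1s : ContDiffOn ℝ ∞ (fun x : E × ℝ × ℝ => (P x.1).f1 (sl S x.1) (d x.1, x.2)) (BX μ0 δ) :=
    (c2.mul c4).contDiffOn.div c1.contDiffOn fun x hx => ((h.at' hx).1.sg_pos (h.at' hx).2).ne'
  unfold JF
  match i with
  | 0 =>
    exact (((q2.sub a4).mul a1).mul c1).contDiffOn.div c2.contDiffOn
      fun x hx => ((h.at' hx).1.A_pos (h.at' hx).2).ne'
  | 1 => exact f1s
  | 2 =>
    simp only [ff, f2]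
    refine ContDiffOn.add (ContDiffOn.div ?_ ((c3.mul c4).mul c1).contDiffOn fun x hx => ?_)
      ((f1s.mul (by fun_prop)).mul (b4.pow 2).contDiffOn)
    · exact (c2.mul (((c1.pow 2).mul c6).add (((c4.pow 2).mul (q1.pow 2)).mul
        (c7.sub (c4.mul (((a4.pow 2).add (q1.pow 2)).add c1)))))).contDiffOn
    exact (mul_pos (mul_pos ((h.at' hx).1.q_pos (h.at' hx).2) ((P x.1).eE_pos _ _))
      ((h.at' hx).1.sg_pos (h.at' hx).2)).ne'
  | 3 => exact (f1s.mul b4.contDiffOn).neg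
  | 4 => exact a1.contDiffOn.mul (Q.WW a4 a2 fun x hx => (h.at' hx).1.A_pos (h.at' hx).2)
  | _ + 5 => exact contDiffOn_const

lemma JF_par (μ : E) (s z : ℝ) : JF P d S 0 (μ, s, -z) = JF P d S 0 (μ, s, z) ∧
    JF P d S 1 (μ, s, -z) = JF P d S 1 (μ, s, z) ∧ JF P d S 2 (μ, s, -z) = JF P d S 2 (μ, s, z) ∧
    JF P d S 3 (μ, s, -z) = -JF P d S 3 (μ, s, z) ∧
    JF P d S 4 (μ, s, -z) = JF P d S 4 (μ, s, z) := by
  have s0 : ContDiff ℝ ∞ (sl S μ) := h.smooth.comp (contDiff_const.prodMk contDiff_snd)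
  have a1 : ∀ d s ζ, eta (sl S μ) (d, s, -ζ) = eta (sl S μ) (d, s, ζ) := fun d s ζ => by
    simp only [eta, sl, h.par]
  have a2 : ∀ d s ζ, zz (sl S μ) (d, s, -ζ) = -1 * zz (sl S μ) (d, s, ζ) := fun d s ζ => by
    simp only [zz, sl, h.par, neg_mul, one_mul]
  have a3 : ∀ d s ζ, pp (sl S μ) (d, s, -ζ) = -1 * pp (sl S μ) (d, s, ζ) := fun d s ζ => by
    simp only [pp, sl, h.par, neg_mul, one_mul]
  have a4 : ∀ d s ζ, hh (sl S μ) (d, s, -ζ) = 1 * hh (sl S μ) (d, s, ζ) := fun d s ζ => by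
    simp only [hh, sl, h.par, one_mul]
  have b2 := dz_par (f := zz (sl S μ)) s0.snd.fst a2
  have b3 := dz_par (f := pp (sl S μ)) s0.snd.snd.fst a3
  have b4 := dz_par (f := hh (sl S μ)) s0.snd.snd.snd a4
  simp only [JF, ff, f0, f1, f2, f3, f4, sg, aA, aQ, eB, eT, eE, WW, rad_eq, a1, a2, a3, b2, b3, b4,
    Q2_neg, neg_mul, one_mul, neg_neg, neg_sq, mul_neg, neg_div, and_self]

lemma dphi0 : ∃ v < 0, HasDerivAt (fun s => JF P d S 1 (μ0, s, 0)) v 0 := by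
  have p0 := h.pos
  have hx : ∀ s ∈ Ioo (-δ) (1 + δ), ((μ0, s, 0) : E × ℝ × ℝ) ∈ BX μ0 δ := fun s hs =>
    ⟨by simpa using p0.le, hs, by simp; linarith⟩
  have h0 : (0 : ℝ) ∈ Ioo (-δ) (1 + δ) := ⟨by linarith, by linarith⟩
  obtain ⟨g, hc⟩ := h.at' (hx 0 h0)
  have e0 : (P μ0).rad (sl S μ0) (d μ0, 0, 0) = (P μ0).m := by simp [rad_eq]
  have hm := (P μ0).hm
  have hR := (P μ0).hR
  have ha := (P μ0).ha
  have k1 := hasDerivAt_ds (dAt g.rad_s (d μ0, 0, 0))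
  have k2 : 0 < ds ((P μ0).rad (sl S μ0)) (d μ0, 0, 0) := by
    rw [g.ds_rad hc, cf_eq]
    exact mul_pos (div_pos (mul_pos (mul_pos (h.chr μ0 (hx 0 h0).1).1 (g.eta_pos hc))
      (sub_pos.2 (g.r_lt hc))) (mul_pos (P μ0).k_pos (g.A_pos hc))) ((P μ0).qq_pos (g.q_pos hc))
  have k3 := ((k1.pow 2).add_const ((P μ0).a ^ 2)).add ((hasDerivAt_const (0 : ℝ)
    (((P μ0).m + (P μ0).R) * (P μ0).a ^ 2)).div k1 (by rw [e0]; exact hm.ne'))
  refine ⟨_, ?_, k3.congr_of_eventuallyEq ?_⟩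
  · simp only [e0, ha]
    generalize ds ((P μ0).rad (sl S μ0)) (d μ0, 0, 0) = v at *
    generalize (P μ0).m = m at *
    generalize (P μ0).R = R at *
    have : ((2 : ℕ) : ℝ) * m ^ (2 - 1) * v + (0 * m - (m + R) * (m * R) * v) / m ^ 2 =
        -((R - m) * (R + 2 * m) * v / m) := by
      push_cast
      field_simp
      ring
    rw [this]
    have := sub_pos.2 hR
    have : 0 < R := by linarith
    exact neg_neg_of_pos (by positivity)
  · filter_upwards [Ioo_mem_nhds h0.1 h0.2] with s hs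
    obtain ⟨-, hc⟩ := h.at' (hx s hs)
    have z0 := h.par μ0 s 0
    rw [neg_zero] at z0
    have z1 : zz (sl S μ0) (d μ0, s, 0) = 0 := by
      have := congrArg (fun w : W4 => w.2.1) z0
      simp only [zz, sl] at this ⊢
      linarith
    have z2 : pp (sl S μ0) (d μ0, s, 0) = 0 := by
      have := congrArg (fun w : W4 => w.2.2.1) z0
      simp only [pp, sl] at this ⊢
      linarith
    have r0 := (g.r_pos hc).ne'
    have a0 := (P μ0).a2_pos.ne'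
    simp only [JF, ff, f1, aA, eE, sg, z1, z2, Q2, Dl, Pi.add_apply, Pi.pow_apply, Pi.div_apply]
      at r0 ⊢
    generalize (P μ0).rad (sl S μ0) (d μ0, s, 0) = r at *
    have e1 : (0 : ℝ) ^ 2 + (P μ0).a ^ 2 = (P μ0).a ^ 2 := by ring
    have e2 : r ^ 2 + (P μ0).a ^ 2 * 0 ^ 2 = r ^ 2 := by ring
    rw [e1, e2, div_self a0]
    field_simp
    linear_combination (P μ0).a ^ 2 * ha

end Fam

end

/-- the rescaling and the shift of the time -/
def Lm (c t : ℝ) (w : R4) : R4 := (c * (w.1 + t), c * w.2.1, w.2.2)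
def Lc (c : ℝ) (A : R4) : R4 := (c * A.1, c * A.2.1, A.2.2)

lemma Lm_smooth (c t : ℝ) : ContDiff ℝ ∞ (Lm c t) := by unfold Lm; fun_prop

lemma fderiv_Lm (c t : ℝ) (w A : R4) : fderiv ℝ (Lm c t) w A = Lc c A := by
  refine line_eq ((Lm_smooth c t).differentiable (by simp) w) ?_
  have h1 : HasDerivAt (fun u : ℝ => w.2.2 + u • A.2.2) ((1 : ℝ) • A.2.2) 0 :=
    ((hasDerivAt_id (0 : ℝ)).smul_const _).const_add _
  rw [one_smul] at h1
  exact (((lin1 w.1 A.1).add_const t).const_mul c).prodMk (((lin1 w.2.1 A.2.1).const_mul c).prodMk h1)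

/-- the factors of the rescaling -/
def sc (c d : ℝ) : ℕ → ℝ
  | 0 => c ^ 2 * d
  | 4 => c * d
  | _ => 1

lemma pull_Lm {k k' c d t : ℝ} {F : ℕ → R3 → ℝ} {G : ℕ → Y3 → ℝ} {p : P3} (hc : 0 < c)
    (hk : k' * c = k) (hG : ∀ i s z, G i (p, s, z) = sc c d i * F i (d, s, z)) (σ : Bool) (δ : ℝ)
    (hm : Met (bg k' d F σ) (dm k' δ)) :
    Pull (Lm c t) (bg k (Real.exp (-k * t)) (Fx G p) σ)
      {w | Real.exp (-k * t) * Real.exp (-k * w.1) < 1 + δ} (bg k' d F σ) (dm k' δ) := by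
  have e : ∀ w : R4, Real.exp (-k' * (c * (w.1 + t))) =
      Real.exp (-k * t) * Real.exp (-k * w.1) := fun w => by
    rw [← Real.exp_add, ← hk]
    ring_nf
  refine ⟨isOpen_lt (by fun_prop) continuous_const, dm_open _ _, hm, (Lm_smooth c t).contDiffOn,
    fun w hw => (e w).trans_lt hw, fun w _ => (injective_iff_map_eq_zero _).2 fun A hA => ?_,
    fun w _ a b => ?_⟩
  · rw [fderiv_Lm] at hA
    simp only [Lc, Prod.mk_eq_zero, mul_eq_zero, hc.ne', false_or] at hA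
    exact Prod.ext hA.1 (Prod.ext hA.2.1 hA.2.2)
  · have e2 : ∀ a, hor k (Real.exp (-k * t)) (Fx G p) σ w a =
        hor k' d F σ (Lm c t w) (Lc c a) := fun a => by
      simp only [hor, rho, arg, Fx, hG, sc, Lm, Lc, e]
      congr 2
      ring
    rw [fderiv_Lm, fderiv_Lm]
    unfold bg
    rw [e2, e2]
    simp only [gam, rho, arg, Fx, hG, sc, Lm, Lc, e, one_mul]
    ring

theorem gb : GB := by
  intro M a r0 ha hM h1 h2
  set p0 : P3 := (M, a, r0) with hp0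
  have c1 : Continuous fun p : P3 => rm p.1 p.2.1 := by unfold rm; fun_prop
  have c2 : Continuous fun p : P3 => rp p.1 p.2.1 := by unfold rp; fun_prop
  have ev : ∀ᶠ p : P3 in 𝓝 p0, p.2.1 ≠ 0 ∧ |p.2.1| < p.1 ∧ rm p.1 p.2.1 < p.2.2 ∧
      p.2.2 < rp p.1 p.2.1 :=
    (continuous_snd.fst.continuousAt.eventually_ne ha).and
      ((continuous_snd.fst.abs.continuousAt.eventually_lt continuousAt_fst hM).and
      ((c1.continuousAt.eventually_lt (x₀ := p0) continuous_snd.snd.continuousAt h1).and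
      (continuous_snd.snd.continuousAt.eventually_lt (x₀ := p0) c2.continuousAt h2)))
  obtain ⟨ε1, p1, ev⟩ := Metric.eventually_nhds_iff.1 ev
  obtain ⟨cE, es, ei, eb⟩ := exists_clampE p0 (half_pos p1) (half_lt_self p1)
  let P : P3 → Par := fun p => par (ev (eb p)).1 (ev (eb p)).2.1
  let d : P3 → ℝ := fun p => (cE p).2.2 - (P p).m
  have sq : ContDiff ℝ ∞ fun p => √((cE p).1 ^ 2 - (cE p).2.1 ^ 2) :=
    ContDiff.sqrt (by fun_prop) fun p => by
      have := (ev (eb p)).2.1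
      have : (cE p).2.1 ^ 2 < (cE p).1 ^ 2 := by rw [← sq_abs (cE p).2.1]; gcongr
      linarith
  have sm : ContDiff ℝ ∞ fun p => (P p).m := es.fst.sub sq
  have sR : ContDiff ℝ ∞ fun p => (P p).R := es.fst.add sq
  have hP : SmP P := ⟨es.snd.fst, sm, sR,
    (sR.sub sm).div ((sm.pow 2).add (es.snd.fst.pow 2)) fun p => (P p).m0_pos.ne'⟩
  have hd : ContDiff ℝ ∞ d := es.snd.snd.sub sm
  have d0 : ∀ p, 0 < d p := fun p => sub_pos.2 (ev (eb p)).2.2.1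
  obtain ⟨δ, S, h⟩ := exists_fam hP hd p0 (d0 p0) (by
    simp only [d, add_sub_cancel]
    exact (ev (eb p0)).2.2.2)
  have p2 := h.pos
  obtain ⟨c1, s1, i1, b1⟩ := exists_clampE p0 (half_pos p2) (half_lt_self p2)
  obtain ⟨c2, s2, i2, b2⟩ := exists_clampI zero_le_one (half_pos p2) (half_lt_self p2)
  obtain ⟨c3, s3, i3, b3, o3⟩ := exists_clampO (r := 1 + δ / 2) (r' := 1 + δ) (by linarith)
    (by linarith)
  let cl : Y3 → Y3 := fun x => (c1 x.1, c2 x.2.1, c3 x.2.2)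
  have cls : ContDiff ℝ ∞ cl := by
    simp only [cl]
    fun_prop
  have clb : ∀ x, cl x ∈ BX p0 δ := fun x => ⟨(b1 _).le, by simpa using b2 x.2.1, b3 _⟩
  set k := kap M a with hk
  have k0 : 0 < k := (par ha hM).k_pos
  let F : ℕ → Y3 → ℝ := fun i x => JF P d S i (cl x)
  have Fs : ∀ i, ContDiff ℝ ∞ (F i) := fun i => (h.JF_s hP hd i).comp_contDiff cls clb
  have Fp : ∀ p s, ∀ z ∈ Icc (-1 : ℝ) 1, 0 < F 0 (p, s, z) ∧ 0 < F 1 (p, s, z) ∧
      0 < F 1 (p, s, z) * (F 1 (p, s, z) + (1 - z ^ 2) * F 2 (p, s, z)) -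
        (1 - z ^ 2) ^ 2 * F 3 (p, s, z) ^ 2 := fun p s z hz => by
    obtain ⟨g, hc⟩ := h.at' (clb (p, s, z))
    have k3 := g.det_pos hc ((h.chr _ (clb (p, s, z)).1).2.2 _ hc)
    have e : (cl (p, s, z)).2.2 = z := i3 z (by linarith [abs_le.2 hz])
    simp only [e] at k3
    exact ⟨g.f0_pos hc, g.f1_pos hc, k3⟩
  let G : ℕ → Y3 → ℝ := fun i x => sc (k / (P x.1).k) (d x.1) i * F i x
  have cp : ∀ p, 0 < k / (P p).k := fun p => div_pos k0 (P p).k_pos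
  have Gs : ∀ i, ContDiff ℝ ∞ (G i) := fun i => by
    have a1 : ContDiff ℝ ∞ fun x : Y3 => k / (P x.1).k :=
      contDiff_const.div (hP.k.comp contDiff_fst) fun x => (P x.1).k_pos.ne'
    have a2 : ContDiff ℝ ∞ fun x : Y3 => d x.1 := hd.comp contDiff_fst
    refine ContDiff.mul ?_ (Fs i)
    match i with
    | 0 => exact (a1.pow 2).mul a2
    | 4 => exact a1.mul a2
    | 1 | 2 | 3 | _ + 5 => exact contDiff_const
  have g0 : gs (G 1) (p0, 0, 0) < 0 := by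
    obtain ⟨v, v0, hv⟩ := h.dphi0
    have a1 : HasDerivAt (fun t : ℝ => ((p0, t, 0) : Y3)) (0, 1, 0) 0 :=
      (hasDerivAt_const _ _).prodMk ((hasDerivAt_id _).prodMk (hasDerivAt_const _ _))
    have a2 := HasFDerivAt.comp_hasDerivAt 0 (f := fun t : ℝ => ((p0, t, 0) : Y3))
      ((Gs 1).differentiable (by simp) _).hasFDerivAt a1
    refine (a2.unique (hv.congr_of_eventuallyEq ?_)).trans_lt v0
    filter_upwards [Icc_mem_nhds (a := 0 - δ / 2) (b := 1 + δ / 2) (by linarith) (by linarith)]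
      with s hs
    simp only [Function.comp, G, F, sc, cl, one_mul, i1 p0 (by simp; linarith), i2 s hs,
      i3 0 (by simp; linarith)]
  have ev2 : ∀ᶠ x : P3 × ℝ in 𝓝 (p0, 0), gs (G 1) (x.1, x.2, 0) < 0 := by
    have a1 : Continuous (gs (G 1)) :=
      ((Gs 1).continuous_fderiv (by simp)).clm_apply continuous_const
    exact (a1.comp (by fun_prop)).continuousAt.eventually_lt continuousAt_const g0
  obtain ⟨ε2, p3, ev2⟩ := Metric.eventually_nhds_iff.1 ev2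
  obtain ⟨ε, p4, l1, l2, l3⟩ : ∃ ε > 0, ε ≤ ε1 / 2 ∧ ε ≤ δ / 2 ∧ ε ≤ ε2 :=
    ⟨min (ε1 / 2) (min (δ / 2) ε2), by positivity, by simp, by simp, by simp⟩
  have cons : ∀ p ∈ Metric.ball p0 ε, cE p = p ∧
      Cons (P p) (d p) (δ / 2) δ (sl S p) (fun i c => F i (p, c.2)) := fun p hp => by
    have a1 : dist p p0 < ε := hp
    refine ⟨ei p (by linarith), (h.chr p (by linarith)).2.1, ⟨d0 p, half_pos p2⟩,
      fun i => (Fs i).comp (contDiff_const.prodMk contDiff_snd), fun _ => Fp p,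
      fun i s hs z hz => ⟨⟨rfl, ⟨by linarith [hs.1], by linarith [hs.2]⟩, by linarith⟩, ?_⟩⟩
    simp only [F, JF, cl, i1 p (by linarith), i2 s ⟨by linarith [hs.1], hs.2⟩, i3 z (by linarith)]
  have pl : ∀ p ∈ Metric.ball p0 ε, ∀ t σ, _ := fun p hp t σ =>
    pull_Lm (t := t) (G := G) (p := p) (F := fun i c => F i (p, c.2)) (cp p)
      (mul_div_cancel₀ k (P p).k_pos.ne') (fun _ _ _ => rfl) σ (δ / 2) ((cons p hp).2.met σ _)
  have vals : ∀ p ∈ Metric.ball p0 ε, ((P p).m + (P p).R) / 2 = p.1 ∧ (P p).a = p.2.1 ∧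
      (P p).m + d p = p.2.2 ∧ (P p).k = kap p.1 p.2.1 ∧
      omm p.1 (P p).a = (P p).a / ((P p).m ^ 2 + (P p).a ^ 2) := fun p hp => by
    have e := (cons p hp).1
    simp only [P, d, par, e, add_sub_cancel, omm, and_true, rm, rp]
    ring
  have z0 : ∀ z : ℝ × ℝ × ℝ, ((0, z) : R4) ∈
      {w : R4 | Real.exp (-k * 0) * Real.exp (-k * w.1) < 1 + δ / 2} := fun z => by
    simp only [mem_ofPred_eq, mul_zero, Real.exp_zero]
    linarith
  refine ⟨ε, δ / 2, G, ⟨k0, p4, half_pos p2⟩, Gs, fun p s z hz => ?_, fun p s z => ?_,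
    fun p hp => ?_, fun p hp t σ => ?_, fun p hp σ z A B => ?_, fun p hp σ z A B => ?_,
    ε2 / 2, half_pos p3, fun p hp s hs => ev2 (y := (p, s)) ?_⟩
  · simp only [G, sc, one_mul]
    exact ⟨mul_pos (mul_pos (pow_pos (cp p) 2) (d0 p)) (Fp p s z hz).1, (Fp p s z hz).2⟩
  · simp only [G, F, cl, o3, h.JF_par, mul_neg, and_self]
  · exact ev (lt_of_lt_of_le hp (by linarith))
  · exact P354RC.k2.2.1 _ _ _ _ _ (pl p hp t σ) ((cons p hp).2.vac σ P354RK.k1)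
  · obtain ⟨e1, e2, e3, e4, e5⟩ := vals p hp
    have a1 := (pl p hp 0 σ).eq _ (z0 z) (0, A) (0, B)
    have a2 := (cons p hp).2.first σ e1 e5 (k / (P p).k * z.1, z.2) (k / (P p).k * A.1, A.2)
      (k / (P p).k * B.1, B.2)
    simp only [mul_zero, Real.exp_zero, fderiv_Lm, Lm, Lc, add_zero] at a1
    rw [a1, a2, e2, e3, e4]
    rfl
  · obtain ⟨e1, e2, e3, e4, e5⟩ := vals p hp
    have a1 := P354RC.k2.2.2.2.2 _ _ _ _ _ (pl p hp 0 σ) _ (z0 z) (0, A) (0, B)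
      (nrm k 1 (Fx G p) σ (0, z))
    have a2 := (cons p hp).2.second σ e1 e5 (k / (P p).k * z.1, z.2) (k / (P p).k * A.1, A.2)
      (k / (P p).k * B.1, B.2)
    have a3 : Lc (k / (P p).k) (nrm k 1 (Fx G p) σ (0, z)) = nrm (P p).k (d p)
        (fun i c => F i (p, c.2)) σ (0, k / (P p).k * z.1, z.2) := by
      have b1 := (cp p).ne'
      simp only [nrm, Lc, rho_zero, arg_zero, Fx, G, sc, one_mul, Prod.smul_mk, smul_eq_mul,
        mul_one, mul_zero, smul_smul, mul_assoc ((k / (P p).k) ^ 2),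
        Real.sqrt_mul (sq_nonneg (k / (P p).k)), Real.sqrt_sq (cp p).le]
      generalize k / (P p).k = c at *
      refine Prod.ext ?_ (Prod.ext rfl ?_)
      · simp only
        rw [mul_inv, mul_inv_cancel_left₀ b1]
      · simp only
        congr 1
        rw [mul_inv, mul_assoc c, mul_mul_mul_comm, inv_mul_cancel₀ b1, one_mul]
    simp only [fderiv_Lm, a3, fderiv_fun_const, Pi.zero_apply, zero_apply,
      ((bg_lin σ _ _).map_zero), bg_symm σ _ 0, add_zero] at a1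
    simp only [mul_zero, Real.exp_zero, Lm, Lc, add_zero] at a1
    rw [a1, a2, e2, e3, e4]
    rfl
  · rw [Prod.dist_eq, Real.dist_eq, sub_zero, abs_of_nonneg hs.1]
    exact max_lt (lt_of_lt_of_le hp l3) (by linarith [hs.2])

end Vale.Agent.P354RG
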