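import Vale.Agent.P354RG.QL
import Vale.Agent.P354RG.GB
import Vale.Agent.P354J.Pull
import Vale.Agent.P354KF.Kf
import Vale.Agent.P354E3.Geo
import Vale.Agent.P354N2.Sta
import Vale.Agent.P354W2.Main

/-!
BK2: the Kerr family of the frame system.
-/

open scoped ContDiff
open Set Filter Topology

set_option linter.unusedSectionVars false

namespace Vale.Agent.P354RG

open Vale.Agent.P354n (R4)
open Vale.Agent.P354H (X3)
open Vale.Agent.P354C Vale.Agent.P354C.Ix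
open Vale.Agent.P354A (U0)
open Vale.Agent.P354I (P3)
open Vale.Agent.P354R (nn bg gam hor rho arg rot nrm chr Vac met_alg brA brB dE_vals fr0 fr1
  bg_symm kap)

namespace Hyp

variable {F : ℕ → Y3 → ℝ} {σ : Bool} {p : ℕ → QQ → ℝ} (h : Hyp F σ p) (k : ℝ) (x : P3) (t : ℝ)
include h

omit h in
lemma Fx_arg (i : ℕ) (w : R4) :
    Fx F x i (arg k (Real.exp (-k * t)) σ w) = F i (arQ σ (qz k x t w)) := rfl

omit h in
lemma mu_rho (w : R4) : mu k t w ^ 2 = rho k (Real.exp (-k * t)) w := mu_sq k 0 t w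

lemma met_eq : met (UK k F σ p x t) = bg k (Real.exp (-k * t)) (Fx F x) σ := by
  funext w a b
  have e2 := mu_rho k t w
  have e3 : oh F σ (qz k x t w) ^ 2 = F 0 (arQ σ (qz k x t w)) := Real.sq_sqrt (h.F0_pos _).le
  have e4 : ∀ A B, gam k (Real.exp (-k * t)) (Fx F x) σ w A B = gq F σ (qz k x t w) A B :=
    fun A B => rfl
  have e5 : ∀ a : R4, hor k (Real.exp (-k * t)) (Fx F x) σ w a =
      (a.2.2.1 - UK k F σ p x t w b1 * ((a.1 + a.2.1) / 2),
        a.2.2.2 - UK k F σ p x t w b2 * ((a.1 + a.2.1) / 2)) := fun a => by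
    simp only [hor, UK, Vh, nn, e2, rot, Fx_arg]
    refine Prod.ext ?_ ?_ <;> simp [qz] <;> ring
  have h1 := met_alg (mu k t w) (oh F σ (qz k x t w)) _ _ _ _ _ _ _ _ _
    ((a.1 + a.2.1) / 2) ((b.1 + b.2.1) / 2) ((a.1 - a.2.1) / 2) ((b.1 - b.2.1) / 2)
    (mu_pos k t w).ne' (h.oh_pos _).ne' (h.fr.det (qz k x t w)).ne'
    (h.fr.met (qz k x t w) (hor k (Real.exp (-k * t)) (Fx F x) σ w a)
      (hor k (Real.exp (-k * t)) (Fx F x) σ w b))
  rw [e2, e3, ← e4] at h1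
  have h2 : met (UK k F σ p x t) w a b = rho k (Real.exp (-k * t)) w * F 0 (arQ σ (qz k x t w)) *
      -(2 * ((a.1 + a.2.1) / 2 * ((b.1 - b.2.1) / 2) + (a.1 - a.2.1) / 2 * ((b.1 + b.2.1) / 2))) +
      gam k (Real.exp (-k * t)) (Fx F x) σ w (hor k (Real.exp (-k * t)) (Fx F x) σ w a)
        (hor k (Real.exp (-k * t)) (Fx F x) σ w b) := by
    rw [← h1, e5 a, e5 b]
    simp only [met, eta, th, detP, UK, Vh, nn, pow_one]
    rfl
  rw [h2]
  unfold bg
  rw [Fx_arg]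
  ring

lemma UK_s (i : Ix) : ContDiff ℝ ∞ fun w => UK k F σ p x t w i :=
  ((mu_smooth k t).pow _).mul ((h.Vh_s i).comp (qz_smooth k x t))

lemma UK_O (w : R4) : 0 < UK k F σ p x t w O := by
  simp only [UK, Vh, nn, pow_one]
  exact mul_pos (mu_pos k t w) (h.oh_pos _)

lemma UK_det (w : R4) : 0 < detP (UK k F σ p x t w) := by
  have h1 := mul_pos (pow_pos (mu_pos k t w) 2) (h.det_pos (qz k x t w))
  simp only [detP, UK, nn, pow_one] at h1 ⊢
  linarith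

lemma UK_br (w : R4) : br (UK k F σ p x t w) (dfr (UK k F σ p x t) w) 1 2 3 =
    br (UK k F σ p x t w) (dfr (UK k F σ p x t) w) 1 3 2 := by
  rw [brA, brB, h.dfr_UK]
  congr 1
  set q := qz k x t w with hq
  have e1 : ∀ j, fderiv ℝ (fun z => oh F σ z * p j z) q (Tq k q (fa F σ p q 1)) =
      -(k * q.2.1) * (dS (oh F σ) q * p j q + oh F σ q * dS (p j) q) := fun j => by
    rw [← dS_mul h.oh_s (h.fr.smooth j)]
    have : Tq k q (fa F σ p q 1) = (-(k * q.2.1)) • ((0, 1, 0) : QQ) := by simp [Tq, fa]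
    rw [this, map_smul]
    rfl
  have e2 : (fa F σ p q 1).1 = 1 := rfl
  have e3 : ej 1 = 0 := rfl
  simp only [dE_vals, DD, Vh, e1, e2, e3, UK, nn, pow_one, add_zero, ← hq]
  linear_combination -(k * q.2.1) * mu k t w ^ 2 * oh F σ q ^ 2 * h.fr.rot q

lemma nU_eq (w : R4) :
    P354J.nU (L2 (UK k F σ p x t) w) = nrm k (Real.exp (-k * t)) (Fx F x) σ w := by
  have e2 := mu_rho k t w
  have e3 : √(rho k (Real.exp (-k * t)) w * F 0 (arQ σ (qz k x t w))) = UK k F σ p x t w O := by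
    rw [← e2, Real.sqrt_mul (sq_nonneg _), Real.sqrt_sq (mu_pos k t w).le]
    simp only [UK, Vh, nn, oh, pow_one]
  have e4 := (h.UK_O k x t w).ne'
  unfold nrm P354J.nU
  rw [Fx_arg, Fx_arg, e3, fr0, fr1]
  change (2 * UK k F σ p x t w O)⁻¹ • (((1 : ℝ), (1 : ℝ), UK k F σ p x t w b1,
    UK k F σ p x t w b2) + ((1 : ℝ), (-1 : ℝ), (0 : ℝ), (0 : ℝ))) = _
  have e5 : UK k F σ p x t w b1 =
      -(2 * (rho k (Real.exp (-k * t)) w * F 4 (arQ σ (qz k x t w))) * w.2.2.2) := by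
    simp only [UK, Vh, nn, e2]
    simp only [qz]
    ring
  have e6 : UK k F σ p x t w b2 =
      2 * (rho k (Real.exp (-k * t)) w * F 4 (arQ σ (qz k x t w))) * w.2.2.1 := by
    simp only [UK, Vh, nn, e2]
    simp only [qz]
    ring
  rw [e5, e6]
  simp only [rot, Prod.smul_mk, Prod.mk_add_mk, smul_eq_mul, Prod.mk.injEq]
  refine ⟨?_, ?_, ?_, ?_⟩ <;> field_simp <;> ring

lemma L2_s (i : Ix) : ContDiff ℝ ∞ fun w => L2 (UK k F σ p x t) w i := by
  simp only [h.L2_UK]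
  exact (((mu_smooth k t).pow _).mul ((h.ZZ_s k i).comp (qz_smooth k x t))).add contDiff_const

variable {D : Set R4} (hD : IsOpen D) (hv : Vac (bg k (Real.exp (-k * t)) (Fx F x) σ) D)
include hD hv

lemma full {w : R4} (hw : w ∈ D) : Full (L2 (UK k F σ p x t) w) (dfr (L2 (UK k F σ p x t)) w) := by
  obtain ⟨G, hG⟩ := hv
  refine (P354Q.conv _ D hD (fun i _ => (h.UK_s k x t i).contDiffOn) fun w _ =>
    ⟨(h.UK_det k x t w).ne', (h.UK_O k x t w).ne', h.UK_br k x t w⟩).2.2.2.2 G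
    (fun y hy => ?_) w hw
  rw [h.met_eq k x t]
  exact hG y hy

lemma ind {w : R4} (hw : w ∈ D) (a b : X3) :
    P354J.hf (L2 (UK k F σ p x t) w) a b = bg k (Real.exp (-k * t)) (Fx F x) σ w (0, a) (0, b) ∧
    P354J.Kf (L2 (UK k F σ p x t) w) a b = -chr (bg k (Real.exp (-k * t)) (Fx F x) σ) w (0, a)
      (0, b) (nrm k (Real.exp (-k * t)) (Fx F x) σ w) := by
  have hm : met (L2 (UK k F σ p x t)) = bg k (Real.exp (-k * t)) (Fx F x) σ := h.met_eq k x t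
  obtain ⟨_, h1⟩ := P354J.ind (L2 (UK k F σ p x t)) w (h.UK_det k x t w).ne' (h.UK_O k x t w).ne'
  obtain ⟨_, _, h2, h3⟩ := h1 a b
  have h4 := (P354Q.vac (L2 (UK k F σ p x t)) D hD
    (fun i => (h.L2_s k x t i).contDiffOn) (fun y hy => ⟨(h.UK_det k x t y).ne',
      (h.UK_O k x t y).ne', (h.full k x t hD hv hy).tor, (h.full k x t hD hv hy).dO⟩) w hw).1
  rw [hm] at h2 h3 h4
  refine ⟨h2.symm, ?_⟩
  rw [← h3, h.nU_eq k x t, bg_symm, chr, ← h4]
  ring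

end Hyp

theorem bk2_of (hB : GB) (hT : TEN) (hF : KF) (hP : PDK) (hG : GEO) (hS : STA) (hW : WIT) :
    P354I.BK2 := by
  intro M a r0 ha hM h1 h2
  obtain ⟨ε0, δ, G, hG0⟩ := hB M a r0 ha hM h1 h2
  set k := kap M a with hk
  obtain ⟨k0, e0, d0⟩ := hG0.pos0
  choose p hp using fun σ => exists_fr σ hG0.smooth hG0.pos
  have h : ∀ σ, Hyp G σ (p σ) := fun σ =>
    ⟨hG0.smooth, fun d s z hz => (hG0.pos d s z hz).1, hp σ⟩
  obtain ⟨a1, ⟨C, a2⟩, a3⟩ := kz_bd k0 (Z := fun σ => ZZ k G σ (p σ))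
    (fun σ i => (h σ).ZZ_s k i) (fun σ i hi => (h σ).ZZ_bdry k i hi) (M, a, r0) ε0
  have l0 : 0 < Real.log (1 + δ) / k := div_pos (Real.log_pos (by linarith)) k0
  have hD : ∀ t, IsOpen {w : R4 | Real.exp (-k * t) * Real.exp (-k * w.1) < 1 + δ} := fun t =>
    isOpen_lt (by fun_prop) continuous_const
  have mem : ∀ t ≥ 0, ∀ w : R4, -min 1 (Real.log (1 + δ) / k) < w.1 →
      w ∈ {w : R4 | Real.exp (-k * t) * Real.exp (-k * w.1) < 1 + δ} := fun t ht w hw => by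
    have b1 : -w.1 < Real.log (1 + δ) / k := by linarith [min_le_right 1 (Real.log (1 + δ) / k)]
    rw [lt_div_iff₀ k0] at b1
    rw [mem_ofPred_eq, ← Real.exp_add, ← Real.lt_log_iff_exp_lt (by linarith)]
    nlinarith [mul_nonneg k0.le ht]
  have z0 : -min 1 (Real.log (1 + δ) / k) < 0 := neg_neg_of_pos (lt_min one_pos l0)
  have hK : ∀ x t σ (w : R4), P354I.r2 w.2 ≤ 16 →
      KZ k (fun σ => ZZ k G σ (p σ)) x t σ w = L2 (UK k G σ (p σ) x t) w := fun x t σ w hw => by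
    funext i
    rw [KZ_in _ _ _ _ _ hw, (h σ).L2_UK]
    rfl
  have hI : ∀ x ∈ Metric.ball (M, a, r0) ε0, ∀ t ≥ 0, ∀ t', -min 1 (Real.log (1 + δ) / k) < t' - t →
      ∀ σ z, P354J.Ind (L2 (UK k G σ (p σ) x t) (t' - t, z)) (P354J.pb σ (kd k G x t').h z)
        (P354J.pb σ (kd k G x t').K z) := fun x hx t ht t' ht' σ z i j => by
    obtain ⟨b1, b2⟩ := (h σ).ind k x t (hD t) (hG0.vac x hx t σ) (mem t ht (t' - t, z) ht')
      (P354H.e i) (P354H.e j)
    obtain ⟨c1, c2⟩ := hF k _ G x σ (t' - t) z (P354H.e i) (P354H.e j) (Real.exp_pos (-k * t))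
      hG0.smooth fun s ζ hζ => (hG0.pos x s ζ hζ).1
    have e : Real.exp (-k * t) * Real.exp (-k * (t' - t)) = Real.exp (-k * t') := by
      rw [← Real.exp_add]
      ring_nf
    rw [b1, b2, c1, c2, e]
    exact ⟨(hT _ σ z i j).symm, (hT _ σ z i j).symm⟩
  have hcv : ∀ x ∈ Metric.ball (M, a, r0) ε0, ∀ t ≥ 0, ∀ σ y,
      L2 (UK k G σ (p σ) x t) (0, y) = P354J.Ud (kd k G x t) σ y ∧
      P354J.CC (P354J.pb σ (kd k G x t).h) (P354J.pb σ (kd k G x t).K) y := fun x hx t ht σ y => by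
    refine P354J.cv _ _ (P354J.sl2 _ σ (hP _ _ _ _ _ hG0 x t)).1
      (P354H.sl (L2 (UK k G σ (p σ) x t)) 0) univ isOpen_univ (fun z _ => ?_) y (mem_univ y)
    have q1 : qz k x t (0, z) = ((x, Real.exp (-k * t)), Real.exp (-k * t), z.2) := by simp [qz]
    have s1 := (hp σ).sym (x, Real.exp (-k * t)) z.2
    refine ⟨(h σ).UK_O k x t _, ?_, (h σ).UK_det k x t _, ?_, ?_, ?_⟩
    · change 0 < UK k G σ (p σ) x t (0, z) P11
      simp only [UK, Vh, nn, pow_one]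
      refine mul_pos (mu_pos _ _ _) (mul_pos ((h σ).oh_pos _) ?_)
      rw [q1]
      exact s1.2
    · change UK k G σ (p σ) x t (0, z) P12 = UK k G σ (p σ) x t (0, z) P21
      simp only [UK, Vh, nn, q1, s1.1]
    · have := hI x hx t ht t (by simpa using z0) σ z
      rwa [sub_self] at this
    · exact (P354J.dslThm _ 0 z fun i => ((h σ).L2_s k x t i).differentiable (by simp) _).1
        (P354R.Full.constr ((h σ).full k x t (hD t) (hG0.vac x hx t σ) (mem t ht (0, z) z0)))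
  refine ⟨ε0, min 1 (Real.log (1 + δ) / k), C, KZ k fun σ => ZZ k G σ (p σ), kd k G,
    ⟨k0, e0, lt_min one_pos l0, min_le_left _ _⟩, fun x _ t _ σ => a1 x t σ, a2,
    fun x hx t ht σ w hw hr => ?_, a3, fun x hx t ht => ⟨⟨hP _ _ _ _ _ hG0 x t, fun σ u y => ?_⟩,
      fun y hy => ?_⟩, fun x hx t ht σ z hz => (hK x t σ (0, z) hz.le).trans (hcv x hx t ht σ z).1,
    fun x hx t ht t' _ ht' σ z hz => ?_, (hG _ _ _ _ _ hG0).1, (hG _ _ _ _ _ hG0).2,
    hS _ _ _ _ _ hG0, hW _ _ _ _ _ hG0⟩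
  · have ho : IsOpen {y : R4 | P354I.r2 y.2 < 16} :=
      isOpen_lt (by unfold P354I.r2; fun_prop) continuous_const
    have hev : KZ k (fun σ => ZZ k G σ (p σ)) x t σ =ᶠ[𝓝 w] L2 (UK k G σ (p σ) x t) := by
      filter_upwards [ho.mem_nhds hr] with y hy using hK x t σ y (le_of_lt hy)
    have e2 : dfr (KZ k (fun σ => ZZ k G σ (p σ)) x t σ) w = dfr (L2 (UK k G σ (p σ) x t)) w := by
      funext j i
      unfold dfr
      rw [hK x t σ w hr.le, EventuallyEq.fderiv_eq (hev.mono fun y hy => congrFun hy i)]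
    rw [e2, hK x t σ w hr.le]
    exact ⟨(h σ).full k x t (hD t) (hG0.vac x hx t σ) (mem t ht w hw), (h σ).UK_O k x t w,
      ((h σ).UK_det k x t w).ne'⟩
  · have b1 : ∀ c, P354J.pb σ (ten c) (u, y) = P354J.pb σ (ten c) (0, y) := fun c => by
      ext i j
      rw [hT, hT]
      rfl
    simp only [kd, b1, and_self]
  · obtain ⟨σ, hσ⟩ := P354R.exists_chart hy
    have b1 := ((P354J.sl2 _ σ (hP _ _ _ _ _ hG0 x t)).2 (P354J.Psi σ y)).1 (hcv x hx t ht σ _).2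
    rwa [((P354JK.inv σ).2 y hy hσ).1] at b1
  · rw [hK x t σ (t' - t, z) hz.le]
    exact hI x hx t ht t' ht' σ z

theorem bk2 : P354I.BK2 :=
  bk2_of gb P354E3.ten_pb P354KF.kf P354E3.pdk P354E3.geo P354N2.sta_main
    (P354W2.wit P354E3.ten_pb P354E3.pdk)

end Vale.Agent.P354RG
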