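import Vale.Agent.P354RG.NoC

/-!
The characteristics as functions of r, with parameters.
-/

open scoped ContDiff
open Set Filter Topology Real

set_option linter.unusedSectionVars false

namespace Vale.Agent.P354RG

open Vale.Agent.P354R Par

abbrev W5 : Type := ℝ × ℝ × ℝ × ℝ × ℝ

noncomputable def ww (P : Par) (r ζ : ℝ) : ℝ := |P.a| / P.qq r ζ
noncomputable def ll (P : Par) (r ζ z : ℝ) : ℝ := P.k * P.Q2 r z / ((P.R - r) * P.qq r ζ)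

lemma Q2_neg (P : Par) (r ζ : ℝ) : P.Q2 r (-ζ) = P.Q2 r ζ := by simp [Q2]

lemma Q2_ge (P : Par) {r ζ : ℝ} (h1 : P.m ≤ r) (h2 : r ≤ P.R) (hζ : |ζ| ≤ 1) :
    (r ^ 2 + P.a ^ 2) ^ 2 ≤ P.Q2 r ζ := by
  have h3 : ζ ^ 2 ≤ 1 := by rw [← sq_abs ζ]; nlinarith [abs_nonneg ζ]
  have h4 : 0 ≤ P.a ^ 2 * (1 - ζ ^ 2) * ((P.R - r) * (r - P.m)) :=
    mul_nonneg (mul_nonneg (sq_nonneg _) (by linarith)) (mul_nonneg (by linarith) (by linarith))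
  unfold Q2 Dl
  linarith

variable {E : Type} [NormedAddCommGroup E] [NormedSpace ℝ E] [FiniteDimensional ℝ E]

/-- The region where the coefficients are smooth; the arguments are (mu, r, zeta, z). -/
def UU (P : E → Par) (d : E → ℝ) : Set (E × ℝ × ℝ × ℝ) :=
  {x | 0 < d x.1 ∧ 0 < x.2.1 ∧ x.2.1 < (P x.1).R ∧ 0 < (P x.1).Q2 x.2.1 x.2.2.1 ∧
    0 < (P x.1).Q2 x.2.1 x.2.2.2}

def rfl5 (w : W5) : W5 := (-w.1, -w.2.1, w.2.2)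

/-- The solution y ((mu, zeta), r) = (phi, z, Lambda, h, sigma). -/
structure RF (P : E → Par) (d : E → ℝ) (μ0 : E) (lo hi δ : ℝ) (W : E × ℝ × ℝ → ℝ)
    (L : (E × ℝ) × ℝ → ℝ) (y : (E × ℝ) × ℝ → W5) : Prop where
  pos : 0 < δ
  sy : ContDiff ℝ ∞ y
  sW : ContDiff ℝ ∞ W
  sL : ContDiff ℝ ∞ L
  Lb : ∃ c > 0, ∀ x, c ≤ L x
  init : ∀ μ ζ, y ((μ, ζ), (P μ).m + d μ) = (0, ζ, 0, 0, 1)
  sig : ∀ e r, HasDerivAt (fun r => (y (e, r)).2.2.2.2) (L (e, r)) r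
  par : ∀ μ ζ r, y ((μ, -ζ), r) = rfl5 (y ((μ, ζ), r)) ∧ L ((μ, -ζ), r) = L ((μ, ζ), r)
  mem : ∀ μ, dist μ μ0 ≤ δ → (P μ).m ∈ Ioo lo hi ∧ (P μ).m + d μ ∈ Ioo lo hi
  ang : ∀ μ, dist μ μ0 ≤ δ → Ang (fun c => (y ((μ, c.2.2), c.2.1)).1)
    (fun c => (y ((μ, c.2.2), c.2.1)).2.1) (fun c => W (μ, c.2)) 0 lo hi ((P μ).m + d μ) δ
  ode : ∀ μ, dist μ μ0 ≤ δ → ∀ r ∈ Ioo lo hi, ∀ ζ, |ζ| < 1 + δ →
    (μ, r, ζ, (y ((μ, ζ), r)).2.1) ∈ UU P d ∧ W (μ, r, ζ) = ww (P μ) r ζ ∧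
    L ((μ, ζ), r) = exp (y ((μ, ζ), r)).2.2.1 * (ll (P μ) r ζ (y ((μ, ζ), r)).2.1 / d μ) ∧
    HasDerivAt (fun r => (y ((μ, ζ), r)).2.2.1)
      (-((P μ).GG r ζ (y ((μ, ζ), r)).2.1 * ll (P μ) r ζ (y ((μ, ζ), r)).2.1)) r ∧
    HasDerivAt (fun r => (y ((μ, ζ), r)).2.2.2.1)
      (-((P μ).WW r (y ((μ, ζ), r)).2.1 * ll (P μ) r ζ (y ((μ, ζ), r)).2.1 / (P μ).k)) r

variable {P : E → Par} {d : E → ℝ}

lemma UU_open (hP : SmP P) (hd : ContDiff ℝ ∞ d) : IsOpen (UU P d) := by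
  have h0 := hP.comp (g := fun x : E × ℝ × ℝ × ℝ => x.1) contDiff_fst
  have h1 := (h0.Q2 (f := fun x => x.2.1) (g := fun x => x.2.2.1) (by fun_prop)
    (by fun_prop)).continuous
  have h2 := (h0.Q2 (f := fun x => x.2.1) (g := fun x => x.2.2.2) (by fun_prop)
    (by fun_prop)).continuous
  have h3 : Continuous fun x : E × ℝ × ℝ × ℝ => x.2.1 := by fun_prop
  exact (isOpen_lt continuous_const (hd.continuous.comp continuous_fst)).inter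
    ((isOpen_lt continuous_const h3).inter ((isOpen_lt h3 h0.R.continuous).inter
    ((isOpen_lt continuous_const h1).inter (isOpen_lt continuous_const h2))))

/-- the four coefficients -/
noncomputable def co (P : E → Par) (d : E → ℝ) (x : E × ℝ × ℝ × ℝ) : W4 :=
  (ww (P x.1) x.2.1 x.2.2.1, ll (P x.1) x.2.1 x.2.2.1 x.2.2.2 / d x.1,
    -((P x.1).GG x.2.1 x.2.2.1 x.2.2.2 * ll (P x.1) x.2.1 x.2.2.1 x.2.2.2),
    -((P x.1).WW x.2.1 x.2.2.2 * ll (P x.1) x.2.1 x.2.2.1 x.2.2.2 / (P x.1).k))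

lemma co_neg (μ : E) (r ζ z : ℝ) : co P d (μ, r, -ζ, -z) = co P d (μ, r, ζ, z) := by
  simp [co, ww, ll, GG, WW, qq, Q2_neg]

lemma ll_pos {x : E × ℝ × ℝ × ℝ} (hx : x ∈ UU P d) : 0 < ll (P x.1) x.2.1 x.2.2.1 x.2.2.2 :=
  div_pos (mul_pos (P x.1).k_pos hx.2.2.2.2)
    (mul_pos (sub_pos.2 hx.2.2.1) ((P x.1).qq_pos hx.2.2.2.1))

lemma co_smooth (hP : SmP P) (hd : ContDiff ℝ ∞ d) : ContDiffOn ℝ ∞ (co P d) (UU P d) := by
  have h0 := hP.comp (g := fun x : E × ℝ × ℝ × ℝ => x.1) contDiff_fst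
  have a1 : ContDiff ℝ ∞ fun x : E × ℝ × ℝ × ℝ => x.2.1 := by fun_prop
  have a2 : ContDiff ℝ ∞ fun x : E × ℝ × ℝ × ℝ => x.2.2.1 := by fun_prop
  have a3 : ContDiff ℝ ∞ fun x : E × ℝ × ℝ × ℝ => x.2.2.2 := by fun_prop
  have h1 := h0.qq (s := UU P d) a1 a2 fun x hx => hx.2.2.2.1
  have h2 := h0.GG (s := UU P d) a1 a2 a3 (fun x hx => hx.2.2.2.1) fun x hx => hx.2.2.2.2
  have h3 := h0.WW (s := UU P d) a1 a3 fun x hx => hx.2.2.2.2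
  have h4 : ContDiffOn ℝ ∞ (fun x : E × ℝ × ℝ × ℝ => ll (P x.1) x.2.1 x.2.2.1 x.2.2.2) (UU P d) :=
    (h0.k.mul (h0.Q2 a1 a3)).contDiffOn.div ((h0.R.sub a1).contDiffOn.mul h1) fun x hx =>
      (mul_pos (sub_pos.2 hx.2.2.1) ((P x.1).qq_pos hx.2.2.2.1)).ne'
  exact (h0.abs.contDiffOn.div h1 fun x hx => ((P x.1).qq_pos hx.2.2.2.1).ne').prodMk
    ((h4.div (hd.comp contDiff_fst).contDiffOn fun x hx => hx.1.ne').prodMk ((h2.mul h4).neg.prodMk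
      ((h3.mul h4).div h0.k.contDiffOn fun x _ => (P x.1).k_pos.ne').neg))

/-- globally defined coefficients -/
lemma exists_coef (hP : SmP P) (hd : ContDiff ℝ ∞ d) (μ0 : E) (h0 : 0 < d μ0)
    (h1 : (P μ0).m + d μ0 < (P μ0).R) : ∃ δ > 0, ∃ C c : ℝ, 0 < c ∧
      ∃ (T : E × ℝ × ℝ × ℝ → W4) (cz : ℝ → ℝ), ContDiff ℝ ∞ T ∧ ContDiff ℝ ∞ cz ∧
      (∀ x, ‖T x‖ ≤ C ∧ c ≤ (T x).2.1) ∧ (∀ x, |x| ≤ 1 + δ → cz x = x) ∧ (∀ x, |cz x| < 3) ∧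
      (∀ x, cz (-x) = -cz x) ∧ (∀ μ r ζ z, T (μ, r, -ζ, -z) = T (μ, r, ζ, z)) ∧
      ∀ μ r ζ z, dist μ μ0 ≤ δ → r ∈ Icc ((P μ0).m - δ) ((P μ0).m + d μ0 + δ) → |ζ| ≤ 1 + δ →
        |z| ≤ 1 + δ → (μ, r, ζ, z) ∈ UU P d ∧ T (μ, r, ζ, z) = co P d (μ, r, ζ, z) := by
  have hm := (P μ0).hm
  have ha := (P μ0).a2_pos
  obtain ⟨δ1, p1, hU⟩ := tube (UU_open hP hd) μ0 (a := (P μ0).m) (b := (P μ0).m + d μ0)
    (by linarith) fun r hr ζ hζ z hz => by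
      have k1 : 0 < (r ^ 2 + (P μ0).a ^ 2) ^ 2 := by positivity
      exact ⟨h0, hm.trans_le hr.1, hr.2.trans_lt h1,
        k1.trans_le (Q2_ge _ hr.1 (hr.2.trans h1.le) (abs_le.2 hζ)),
        k1.trans_le (Q2_ge _ hr.1 (hr.2.trans h1.le) (abs_le.2 hz))⟩
  obtain ⟨δ, p2, l1, l2⟩ : ∃ δ > 0, δ < δ1 ∧ δ ≤ 1 :=
    ⟨min (δ1 / 2) 1, by positivity, (min_le_left _ _).trans_lt (by linarith), min_le_right _ _⟩
  obtain ⟨δ2, l3, l4, l5⟩ : ∃ δ2, δ < δ2 ∧ δ2 ≤ δ1 ∧ δ2 ≤ 2 :=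
    ⟨min δ1 2, lt_min l1 (by linarith), min_le_left _ _, min_le_right _ _⟩
  obtain ⟨cE, es, ei, eb⟩ := exists_clampE μ0 p2 l1
  obtain ⟨cr, rs, ri, rb⟩ := exists_clampI (a := (P μ0).m) (b := (P μ0).m + d μ0) (by linarith) p2 l1
  obtain ⟨cz, zs, zi, zb, zo⟩ := exists_clampO (r := 1 + δ) (r' := 1 + δ2) (by linarith)
    (by linarith)
  let cl : E × ℝ × ℝ × ℝ → E × ℝ × ℝ × ℝ := fun x => (cE x.1, cr x.2.1, cz x.2.2.1, cz x.2.2.2)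
  have cls : ContDiff ℝ ∞ cl := by
    simp only [cl]
    fun_prop
  let K : Set (E × ℝ × ℝ × ℝ) := Metric.closedBall μ0 δ1 ×ˢ
    Icc ((P μ0).m - δ1) ((P μ0).m + d μ0 + δ1) ×ˢ Icc (-1 - δ1) (1 + δ1) ×ˢ Icc (-1 - δ1) (1 + δ1)
  have hK : IsCompact K :=
    (isCompact_closedBall _ _).prod (isCompact_Icc.prod (isCompact_Icc.prod isCompact_Icc))
  have hKU : K ⊆ UU P d := fun x hx => hU _ _ _ _ hx.1 hx.2.1 hx.2.2.1 hx.2.2.2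
  have zb' : ∀ x, cz x ∈ Icc (-1 - δ1) (1 + δ1) := fun x => by
    have := abs_lt.1 (zb x)
    constructor <;> linarith [this.1, this.2]
  have clK : ∀ x, cl x ∈ K := fun x => ⟨(eb _).le, Ioo_subset_Icc_self (rb _), zb' _, zb' _⟩
  have hc := (co_smooth hP hd).continuousOn.mono hKU
  obtain ⟨C, hC⟩ := hK.exists_bound_of_continuousOn hc
  obtain ⟨x0, k1, k2⟩ := hK.exists_isMinOn ⟨_, clK 0⟩ (f := fun x => (co P d x).2.1) hc.snd.fst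
  refine ⟨δ, p2, C, (co P d x0).2.1, div_pos (ll_pos (hKU k1)) (hKU k1).1, co P d ∘ cl, cz,
    (co_smooth hP hd).comp_contDiff cls fun x => hKU (clK x), zs,
    fun x => ⟨hC _ (clK x), k2 (clK x)⟩, zi, fun x => (zb x).trans_le (by linarith), zo,
    fun μ r ζ z => ?_, fun μ r ζ z a1 a2 a3 a4 => ?_⟩
  · simp only [Function.comp, cl, zo, co_neg]
  · have e : cl (μ, r, ζ, z) = (μ, r, ζ, z) := by simp only [cl, ei μ a1, ri r a2, zi ζ a3, zi z a4]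
    exact ⟨e ▸ hKU (clK _), by simp only [Function.comp, e]⟩

lemma nm4 {w : W4} {C : ℝ} (h : ‖w‖ ≤ C) :
    |w.1| ≤ C ∧ |w.2.1| ≤ C ∧ |w.2.2.1| ≤ C ∧ |w.2.2.2| ≤ C := by
  simpa only [Prod.norm_def, Real.norm_eq_abs, max_le_iff] using h

theorem exists_RF (hP : SmP P) (hd : ContDiff ℝ ∞ d) (μ0 : E) (h0 : 0 < d μ0)
    (h1 : (P μ0).m + d μ0 < (P μ0).R) : ∃ lo hi δ W L y, RF P d μ0 lo hi δ W L y := by
  obtain ⟨δ1, p1, C, c, c0, T, cz, Ts, zs, Tb, zi, zb, zo, To, Te⟩ := exists_coef hP hd μ0 h0 h1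
  have C0 : 0 ≤ C := (norm_nonneg _).trans (Tb 0).1
  set lo := (P μ0).m - δ1 with hlo
  set hi := (P μ0).m + d μ0 + δ1 with hhi
  have hl : 0 < hi - lo := by rw [hlo, hhi]; linarith
  set N := 1 + δ1 + 9 * C * (hi - lo) with hN
  have N0 : 0 < N := by positivity
  obtain ⟨cN, ns, ni, nb, no⟩ := exists_clampO N0 (lt_add_one N)
  let W : E × ℝ × ℝ → ℝ := fun x => (T (x.1, x.2.1, x.2.2, x.2.2)).1
  have Ws : ContDiff ℝ ∞ W := by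
    simp only [W]
    fun_prop
  let f : (E × ℝ) × ℝ × W5 → W5 := fun x =>
    (W (x.1.1, x.2.1, x.1.2) * cN x.2.2.2.1,
      W (x.1.1, x.2.1, x.1.2) * ((1 - cz x.1.2 ^ 2) * (sin x.2.2.1 * cos x.2.2.1)),
      (T (x.1.1, x.2.1, x.1.2, x.2.2.2.1)).2.2.1, (T (x.1.1, x.2.1, x.1.2, x.2.2.2.1)).2.2.2,
      exp (cN x.2.2.2.2.1) * (T (x.1.1, x.2.1, x.1.2, x.2.2.2.1)).2.1)
  have fs : ContDiff ℝ ∞ f := by
    simp only [f]
    fun_prop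
  have Wb : ∀ x, |W x| ≤ C := fun x => (nm4 (Tb _).1).1
  have fz : ∀ x, |(f x).2.1| ≤ 9 * C := fun x => by
    have k1 := Wb (x.1.1, x.2.1, x.1.2)
    have k2 : |1 - cz x.1.2 ^ 2| ≤ 9 := by
      have := abs_lt.1 (zb x.1.2)
      rw [abs_le]
      constructor <;> nlinarith [this.1, this.2]
    have k3 := abs_sin_le_one x.2.2.1
    have k4 := abs_cos_le_one x.2.2.1
    simp only [f, abs_mul]
    calc _ ≤ C * (9 * (1 * 1)) := by gcongr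
      _ = 9 * C := by ring
  have fb : ∀ x, ‖f x‖ ≤ C * (N + 10 + exp (N + 1)) := fun x => by
    have k1 := Wb (x.1.1, x.2.1, x.1.2)
    obtain ⟨-, k2, k3, k4⟩ := nm4 (Tb (x.1.1, x.2.1, x.1.2, x.2.2.2.1)).1
    have k5 := fz x
    have k6 := (nb x.2.2.2.1).le
    have k7 : exp (cN x.2.2.2.2.1) ≤ exp (N + 1) := exp_le_exp.2 (abs_lt.1 (nb _)).2.le
    have k8 := mul_nonneg C0 (exp_pos (N + 1)).le
    have k9 := mul_nonneg C0 N0.le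
    have k10 : |W (x.1.1, x.2.1, x.1.2)| * |cN x.2.2.2.1| ≤ C * (N + 1) := by gcongr
    have k11 : exp (cN x.2.2.2.2.1) * |(T (x.1.1, x.2.1, x.1.2, x.2.2.2.1)).2.1| ≤
      exp (N + 1) * C := by gcongr
    simp only [Prod.norm_def, Real.norm_eq_abs, max_le_iff]
    refine ⟨?_, by linarith, by linarith, by linarith, ?_⟩
    · simp only [f, abs_mul]
      linarith
    · simp only [f, abs_mul, abs_exp]
      linarith
  have hm := hP.m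
  obtain ⟨y, ys, yi, yd, yu⟩ := exists_sol fs fb (t0 := fun e => (P e.1).m + d e.1)
    (w0 := fun e => (0, e.2, 0, 0, 1)) ((hm.add hd).comp contDiff_fst) (by fun_prop)
  have ev : ∀ᶠ μ in 𝓝 μ0, (P μ).m ∈ Ioo lo hi ∧ (P μ).m + d μ ∈ Ioo lo hi :=
    (hm.continuous.continuousAt.eventually (Ioo_mem_nhds (by linarith) (by linarith))).and
      ((hm.add hd).continuous.continuousAt.eventually (Ioo_mem_nhds (by linarith) (by linarith)))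
  obtain ⟨δ2, p2, ev⟩ := Metric.eventually_nhds_iff.1 ev
  obtain ⟨δ, p3, l1, l2⟩ : ∃ δ > 0, δ ≤ δ1 ∧ δ < δ2 :=
    ⟨min δ1 (δ2 / 2), by positivity, min_le_left _ _, (min_le_right _ _).trans_lt (by linarith)⟩
  have mem : ∀ μ, dist μ μ0 ≤ δ → (P μ).m ∈ Ioo lo hi ∧ (P μ).m + d μ ∈ Ioo lo hi :=
    fun μ h => ev (h.trans_lt l2)
  have par : ∀ μ ζ r, y ((μ, -ζ), r) = rfl5 (y ((μ, ζ), r)) := fun μ ζ r => by
    refine (yu (μ, -ζ) (fun r => rfl5 (y ((μ, ζ), r))) ?_ (fun t => ?_) r).symm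
    · simp only [yi (μ, ζ), rfl5, neg_zero]
    · have k := yd (μ, ζ) t
      refine ((hd1 k).neg.prodMk ((hd1 (hd2 k)).neg.prodMk (hd2 (hd2 k)))).congr_deriv ?_
      simp only [f, W, rfl5, To, zo, no, sin_neg, cos_neg, neg_sq, mul_neg, neg_mul]
  have bd : ∀ μ, dist μ μ0 ≤ δ → ∀ r ∈ Ioo lo hi, ∀ ζ, |ζ| < 1 + δ →
      cN (y ((μ, ζ), r)).2.1 = (y ((μ, ζ), r)).2.1 ∧
      cN (y ((μ, ζ), r)).2.2.1 = (y ((μ, ζ), r)).2.2.1 := fun μ hμ r hr ζ hζ => by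
    have k0 : |r - ((P μ).m + d μ)| ≤ hi - lo := by
      have := (mem μ hμ).2
      rw [abs_le]
      constructor <;> linarith [hr.1, hr.2, this.1, this.2]
    have k1 := lip (fun t => hd1 (hd2 (yd (μ, ζ) t))) (fun t => fz _) r ((P μ).m + d μ)
    have k2 := lip (fun t => hd1 (hd2 (hd2 (yd (μ, ζ) t)))) (fun t => (nm4 (Tb _).1).2.2.1) r
      ((P μ).m + d μ)
    simp only [yi (μ, ζ), sub_zero] at k1 k2
    have k3 := mul_le_mul_of_nonneg_left k0 C0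
    have k4 := mul_nonneg C0 hl.le
    have k5 := abs_sub_abs_le_abs_sub (y ((μ, ζ), r)).2.1 ζ
    exact ⟨ni _ (by linarith), ni _ (by linarith)⟩
  have ang : ∀ μ, dist μ μ0 ≤ δ → Ang (fun c => (y ((μ, c.2.2), c.2.1)).1)
      (fun c => (y ((μ, c.2.2), c.2.1)).2.1) (fun c => W (μ, c.2)) 0 lo hi ((P μ).m + d μ) δ :=
    fun μ hμ => by
    have s1 : ContDiff ℝ ∞ fun c : R3 => (y ((μ, c.2.2), c.2.1)).1 := by fun_prop
    have s2 : ContDiff ℝ ∞ fun c : R3 => (y ((μ, c.2.2), c.2.1)).2.1 := by fun_prop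
    refine ⟨s1, s2, by fun_prop, p3, (mem μ hμ).2, fun ζ => by simp only [yi (μ, ζ)],
      fun ζ => by simp only [yi (μ, ζ)], fun r hr ζ hζ => ?_, fun r hr ζ hζ => ?_⟩
    · rw [(hasDerivAt_ds (dAt s1 _)).unique (hd1 (yd (μ, ζ) r))]
      simp only [f, (bd μ hμ r hr ζ hζ).1]
    · rw [(hasDerivAt_ds (dAt s2 _)).unique (hd1 (hd2 (yd (μ, ζ) r)))]
      simp only [f, zi ζ (by linarith)]
  refine ⟨lo, hi, δ, W, fun x => (f (x.1, x.2, y x)).2.2.2.2, y, p3, ys, Ws, by fun_prop,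
    ⟨exp (-(N + 1)) * c, by positivity, fun x => ?_⟩, fun μ ζ => yi (μ, ζ),
    fun e r => hd2 (hd2 (hd2 (hd2 (yd e r)))), fun μ ζ r => ⟨par μ ζ r, ?_⟩, mem, ang,
    fun μ hμ r hr ζ hζ => ?_⟩
  · exact mul_le_mul (exp_le_exp.2 (abs_lt.1 (nb _)).1.le) (Tb _).2 c0.le (exp_pos _).le
  · simp only [f, par, rfl5, To]
  · have k1 := (ang μ hμ).z_lt hr hζ
    obtain ⟨k2, k3⟩ := Te μ r ζ _ (hμ.trans l1) (Ioo_subset_Icc_self hr) (by linarith)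
      (k1.le.trans (by linarith))
    obtain ⟨-, k4⟩ := Te μ r ζ ζ (hμ.trans l1) (Ioo_subset_Icc_self hr) (by linarith) (by linarith)
    have k5 := hd1 (hd2 (hd2 (yd (μ, ζ) r)))
    have k6 := hd1 (hd2 (hd2 (hd2 (yd (μ, ζ) r))))
    simp only [f, k3, co] at k5 k6
    refine ⟨k2, by simp only [W, k4, co], ?_, k5, k6⟩
    simp only [f, k3, co, (bd μ hμ r hr ζ hζ).2]

end Vale.Agent.P354RG
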