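import Vale.Agent.P354R.Bg
import Vale.Agent.P354H.Defs

/-!
Bounds for smooth functions of (x, s, y): x a parameter, s a small variable, y the angles.
-/

open scoped ContDiff
open Set Filter Topology

namespace Vale.Agent.P354RG

open Vale.Agent.P354H (X3 pd pdl Sb)

variable {X : Type} [NormedAddCommGroup X] [NormedSpace ℝ X]

/-- smooth, and zero for large y -/
structure Far (G : X × ℝ × ℝ × ℝ → ℝ) : Prop where
  sm : ContDiff ℝ ∞ G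
  far : ∀ q : X × ℝ × ℝ × ℝ, 25 < q.2.2.1 ^ 2 + q.2.2.2 ^ 2 → G q = 0

lemma fd_zero {G : X × ℝ × ℝ × ℝ → ℝ} (hG : ContDiff ℝ ∞ G) {q v : X × ℝ × ℝ × ℝ}
    (h : ∀ t : ℝ, G (q + t • v) = 0) : fderiv ℝ G q v = 0 := by
  refine ((hG.differentiable (by simp) q).hasFDerivAt.hasLineDerivAt v).unique ?_
  unfold HasLineDerivAt
  simp only [h]
  exact hasDerivAt_const _ _

lemma Far.dir {G : X × ℝ × ℝ × ℝ → ℝ} (h : Far G) (v : X × ℝ × ℝ × ℝ) :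
    Far fun q => fderiv ℝ G q v := by
  refine ⟨(h.sm.fderiv_right (m := ∞) (by simp)).clm_apply contDiff_const, fun q hq => ?_⟩
  have ho : IsOpen {q : X × ℝ × ℝ × ℝ | 25 < q.2.2.1 ^ 2 + q.2.2.2 ^ 2} :=
    isOpen_lt continuous_const (by fun_prop)
  have : G =ᶠ[𝓝 q] fun _ => 0 := by
    filter_upwards [ho.mem_nhds hq] with x hx using h.far x hx
  rw [this.fderiv_eq]
  simp

lemma mem5 {y : ℝ × ℝ} (hy : ¬ 25 < y.1 ^ 2 + y.2 ^ 2) :
    y ∈ Icc (-5 : ℝ) 5 ×ˢ Icc (-5 : ℝ) 5 :=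
  ⟨by constructor <;> nlinarith [sq_nonneg y.2], by constructor <;> nlinarith [sq_nonneg y.1]⟩

lemma pd_slX {G : X × ℝ × ℝ × ℝ → ℝ} (hG : ContDiff ℝ ∞ G) (c : ℝ) (x : X) (s : ℝ) (j : Fin 3) :
    pd j (fun z : X3 => c * G (x, s, z.2)) =
      fun z : X3 => c * fderiv ℝ G (x, s, z.2) (0, 0, (P354H.e j).2) := by
  funext z
  have h1 : HasFDerivAt (fun z : X3 => ((x, s, z.2) : X × ℝ × ℝ × ℝ))
      ((0 : X3 →L[ℝ] X).prod ((0 : X3 →L[ℝ] ℝ).prod (ContinuousLinearMap.snd ℝ ℝ (ℝ × ℝ)))) z :=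
    (hasFDerivAt_const _ _).prodMk ((hasFDerivAt_const _ _).prodMk hasFDerivAt_snd)
  have h2 := ((hG.differentiable (by simp) (x, s, z.2)).hasFDerivAt.comp z h1).const_mul c
  exact DFunLike.congr_fun h2.fderiv (P354H.e j)

variable {K : Set X} {S : ℝ}

/-- from bounds of the order zero to all orders -/
lemma sb_of (Pr : (X × ℝ × ℝ × ℝ → ℝ) → Prop) (w : X → ℝ → ℝ)
    (hw : ∀ x ∈ K, ∀ s ∈ Icc 0 S, 0 ≤ w x s) (hs : ∀ G, Pr G → ContDiff ℝ ∞ G)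
    (hd : ∀ G v, Pr G → Pr fun q => fderiv ℝ G q (0, 0, v))
    (h0 : ∀ G, Pr G → ∃ C, 0 ≤ C ∧ ∀ x ∈ K, ∀ s ∈ Icc 0 S, ∀ y, |G (x, s, y)| ≤ C * w x s)
    (m : ℕ) : ∀ G, Pr G → ∃ C, 0 ≤ C ∧ ∀ c, ∀ x ∈ K, ∀ s ∈ Icc 0 S,
      Sb m (fun z : X3 => c * G (x, s, z.2)) (|c| * (C * w x s)) := by
  induction m with
  | zero =>
    intro G h
    obtain ⟨C, k0, hC⟩ := h0 G h
    refine ⟨C, k0, fun c x hx s hs α hα z => ?_⟩
    rw [List.length_eq_zero_iff.1 (Nat.le_zero.1 hα)]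
    simp only [pdl, Real.norm_eq_abs, abs_mul]
    exact mul_le_mul_of_nonneg_left (hC x hx s hs z.2) (abs_nonneg c)
  | succ m ih =>
    intro G h
    obtain ⟨C, k0, hC⟩ := h0 G h
    choose D hD0 hD using fun j : Fin 3 => ih _ (hd G (P354H.e j).2 h)
    have hs0 : 0 ≤ ∑ j, D j := Finset.sum_nonneg fun j _ => hD0 j
    refine ⟨C + ∑ j, D j, by positivity, fun c x hx s hs' α hα z => ?_⟩
    have hes := hw x hx s hs'
    match α with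
    | [] =>
      simp only [pdl, Real.norm_eq_abs, abs_mul]
      refine mul_le_mul_of_nonneg_left ((hC x hx s hs' z.2).trans ?_) (abs_nonneg c)
      gcongr
      linarith
    | j :: β =>
      simp only [pdl]
      rw [pd_slX (hs G h)]
      refine (hD j c x hx s hs' β (by simpa using hα) z).trans ?_
      have : D j ≤ ∑ j, D j := Finset.single_le_sum (fun j _ => hD0 j) (Finset.mem_univ j)
      gcongr
      linarith

namespace Far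

variable {G : X × ℝ × ℝ × ℝ → ℝ}

lemma bd (h : Far G) (hK : IsCompact K) (S : ℝ) :
    ∃ C, 0 ≤ C ∧ ∀ x ∈ K, ∀ s ∈ Icc 0 S, ∀ y, |G (x, s, y)| ≤ C * 1 := by
  obtain ⟨C, hC⟩ := (hK.prod ((isCompact_Icc (a := 0) (b := S)).prod (isCompact_Icc.prod
    isCompact_Icc))).exists_bound_of_continuousOn h.sm.continuous.continuousOn
  refine ⟨max C 0, le_max_right _ _, fun x hx s hs y => ?_⟩
  by_cases hy : 25 < y.1 ^ 2 + y.2 ^ 2
  · rw [h.far (x, s, y) hy]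
    simp
  · rw [mul_one]
    exact (hC (x, s, y) ⟨hx, hs, mem5 hy⟩).trans (le_max_left _ _)

lemma lip (h : Far G) (hK : IsCompact K) (hc : Convex ℝ K) (S : ℝ) :
    ∃ C, 0 ≤ C ∧ ∀ x ∈ K, ∀ x' ∈ K, ∀ s ∈ Icc 0 S, ∀ y,
      |G (x, s, y) - G (x', s, y)| ≤ C * ‖x - x'‖ := by
  obtain ⟨C, hC⟩ := (hK.prod ((isCompact_Icc (a := 0) (b := S)).prod (isCompact_Icc.prod
    isCompact_Icc))).exists_bound_of_continuousOn
    (h.sm.continuous_fderiv (by simp)).continuousOn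
  refine ⟨max C 0, le_max_right _ _, fun x hx x' hx' s hs y => ?_⟩
  by_cases hy : 25 < y.1 ^ 2 + y.2 ^ 2
  · rw [h.far (x, s, y) hy, h.far (x', s, y) hy, sub_self, abs_zero]
    positivity
  · have := (hc.prod ((convex_Icc 0 S).prod ((convex_Icc _ _).prod
      (convex_Icc _ _)))).norm_image_sub_le_of_norm_fderiv_le (𝕜 := ℝ)
      (fun q _ => h.sm.differentiable (by simp) q) (fun q hq => (hC q hq).trans (le_max_left C 0))
      (x := (x', s, y)) (y := (x, s, y)) ⟨hx', hs, mem5 hy⟩ ⟨hx, hs, mem5 hy⟩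
    simpa using this

/-- integration in s -/
lemma int (h : Far G) {x : X} {y : ℝ × ℝ} {B s : ℝ} (h0 : G (x, 0, y) = 0) (hs : s ∈ Icc 0 S)
    (hB : ∀ t ∈ Icc 0 S, |fderiv ℝ G (x, t, y) (0, 1, 0)| ≤ B) : |G (x, s, y)| ≤ B * s := by
  have h1 : ∀ t : ℝ, HasDerivAt (fun t => G (x, t, y)) (fderiv ℝ G (x, t, y) (0, 1, 0)) t :=
    fun t => HasFDerivAt.comp_hasDerivAt t (f := fun t : ℝ => ((x, t, y) : X × ℝ × ℝ × ℝ))
      (h.sm.differentiable (by simp) _).hasFDerivAt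
      ((hasDerivAt_const _ _).prodMk ((hasDerivAt_id _).prodMk (hasDerivAt_const _ _)))
  have h2 := norm_image_sub_le_of_norm_deriv_le_segment' (f := fun t => G (x, t, y)) (a := 0)
    (b := S) (C := B) (fun t _ => (h1 t).hasDerivWithinAt) (fun t ht => hB t ⟨ht.1, ht.2.le⟩) s hs
  simpa [h0] using h2

theorem sb0 (h : Far G) (hK : IsCompact K) (S : ℝ) (m : ℕ) : ∃ C, 0 ≤ C ∧ ∀ c, ∀ x ∈ K,
    ∀ s ∈ Icc 0 S, Sb m (fun z : X3 => c * G (x, s, z.2)) (|c| * (C * 1)) :=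
  sb_of Far (fun _ _ => 1) (fun _ _ _ _ => zero_le_one) (fun _ h => h.sm) (fun _ _ h => h.dir _)
    (fun _ h => h.bd hK S) m G h

theorem sb1 (h : Far G) (h1 : ∀ x y, G (x, 0, y) = 0) (hK : IsCompact K) (S : ℝ) (m : ℕ) :
    ∃ C, 0 ≤ C ∧ ∀ c, ∀ x ∈ K, ∀ s ∈ Icc 0 S,
      Sb m (fun z : X3 => c * G (x, s, z.2)) (|c| * (C * s)) := by
  refine sb_of (fun G => Far G ∧ ∀ x y, G (x, 0, y) = 0) (fun _ s => s) (fun _ _ _ hs => hs.1)
    (fun _ h => h.1.sm) (fun G v h => ⟨h.1.dir _, fun x y => fd_zero h.1.sm fun t => ?_⟩)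
    (fun G h => ?_) m G ⟨h, h1⟩
  · simpa using h.2 _ _
  · obtain ⟨C, k0, hC⟩ := (h.1.dir (0, 1, 0)).bd hK S
    exact ⟨C, k0, fun x hx s hs y => h.1.int (h.2 x y) hs fun t ht => by simpa using hC x hx t ht y⟩

theorem sb2 (h : Far G) {π : X → X} (hπ : MapsTo π K K) (h2 : ∀ x s y, G (π x, s, y) = 0)
    (hK : IsCompact K) (hc : Convex ℝ K) (S : ℝ) (m : ℕ) : ∃ C, 0 ≤ C ∧ ∀ c, ∀ x ∈ K,
      ∀ s ∈ Icc 0 S, Sb m (fun z : X3 => c * G (x, s, z.2)) (|c| * (C * ‖x - π x‖)) := by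
  refine sb_of (fun G => Far G ∧ ∀ x s y, G (π x, s, y) = 0) (fun x _ => ‖x - π x‖)
    (fun _ _ _ _ => norm_nonneg _) (fun _ h => h.1.sm)
    (fun G v h => ⟨h.1.dir _, fun x s y => fd_zero h.1.sm fun t => ?_⟩) (fun G h => ?_) m G ⟨h, h2⟩
  · simpa using h.2 _ _ _
  · obtain ⟨C, k0, hC⟩ := h.1.lip hK hc S
    exact ⟨C, k0, fun x hx s hs y => by simpa [h.2] using hC x hx _ (hπ hx) s hs y⟩

theorem sb3 (h : Far G) {π : X → X} (hπ : MapsTo π K K) (h1 : ∀ x y, G (x, 0, y) = 0)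
    (h2 : ∀ x s y, G (π x, s, y) = 0) (hK : IsCompact K) (hc : Convex ℝ K) (S : ℝ) (m : ℕ) :
    ∃ C, 0 ≤ C ∧ ∀ c, ∀ x ∈ K, ∀ s ∈ Icc 0 S,
      Sb m (fun z : X3 => c * G (x, s, z.2)) (|c| * (C * (‖x - π x‖ * s))) := by
  refine sb_of (fun G => Far G ∧ (∀ x y, G (x, 0, y) = 0) ∧ ∀ x s y, G (π x, s, y) = 0)
    (fun x s => ‖x - π x‖ * s) (fun _ _ _ hs => mul_nonneg (norm_nonneg _) hs.1)
    (fun _ h => h.1.sm) (fun G v h => ⟨h.1.dir _, fun x y => fd_zero h.1.sm fun t => ?_,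
      fun x s y => fd_zero h.1.sm fun t => ?_⟩) (fun G h => ?_) m G ⟨h, h1, h2⟩
  · simpa using h.2.1 _ _
  · simpa using h.2.2 _ _ _
  · obtain ⟨C, k0, hC⟩ := (h.1.dir (0, 1, 0)).lip hK hc S
    refine ⟨C, k0, fun x hx s hs y => ?_⟩
    rw [← mul_assoc]
    refine h.1.int (h.2.1 x y) hs fun t ht => ?_
    have k1 := hC x hx _ (hπ hx) t ht y
    rwa [fd_zero h.1.sm (q := (π x, t, y)) fun u => by simpa using h.2.2 _ _ _, sub_zero] at k1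

end Far

end Vale.Agent.P354RG
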