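import Vale.Agent.P354RG.RFlow

/-!
Identities along the global characteristics (as in P354R.Eik, on another box).
-/

open scoped ContDiff
open Set Filter Topology

set_option linter.unusedSectionVars false

namespace Vale.Agent.P354RG

open Vale.Agent.P354R Par

/-- The box of the arguments (d, s, zeta); ε = (d, δ). -/
def bx (ε : ℝ × ℝ) : Set R3 := {c | c.1 = ε.1 ∧ c.2.1 ∈ Ioo (-ε.2) (1 + ε.2) ∧ |c.2.2| < 1 + ε.2}

/-- The family S (d, s, zeta) = (eta, z, p, h) of characteristics. -/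
structure C0 (P : Par) (ε : ℝ × ℝ) (S : R3 → W4) : Prop where
  pos : 0 < ε.2
  smooth : ContDiff ℝ ∞ S
  init : ∀ d ζ, S (d, 1, ζ) = (1, ζ, 0, 0)
  mem : ∀ c ∈ bx ε, (c, S c) ∈ P.U ∧ 0 < P.rr (c, S c) ∧ P.rr (c, S c) < P.R ∧ 0 < (S c).1
  ode : ∀ d s ζ, (d, s, ζ) ∈ bx ε →
    HasDerivAt (fun t => S (d, t, ζ)) (P.fld ((d, s, ζ), S (d, s, ζ))) s

variable {P : Par} {ε : ℝ × ℝ} {S : R3 → W4}

lemma bx_s {c : R3} (hc : c ∈ bx ε) {s : ℝ} (hs : s ∈ Ioo (-ε.2) (1 + ε.2)) :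
    ((c.1, s, c.2.2) : R3) ∈ bx ε := ⟨hc.1, hs, hc.2.2⟩

lemma bx_ev {d s ζ : ℝ} (hc : ((d, s, ζ) : R3) ∈ bx ε) :
    ∀ᶠ t in 𝓝 ζ, ((d, s, t) : R3) ∈ bx ε := (ev_lt hc.2.2).mono fun _ ht => ⟨hc.1, hc.2.1, ht⟩

namespace C0

variable (h : C0 P ε S)
include h

lemma eta_s : ContDiff ℝ ∞ (eta S) := h.smooth.fst
lemma zz_s : ContDiff ℝ ∞ (zz S) := h.smooth.snd.fst
lemma pp_s : ContDiff ℝ ∞ (pp S) := h.smooth.snd.snd.fst
lemma hh_s : ContDiff ℝ ∞ (hh S) := h.smooth.snd.snd.snd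
lemma rad_s : ContDiff ℝ ∞ (P.rad S) := P.rr_smooth.comp (contDiff_id.prodMk h.smooth)

variable {c : R3} (hc : c ∈ bx ε)
include hc

lemma q_pos : 0 < P.Q2 (P.rad S c) c.2.2 := (h.mem c hc).1.1
lemma A_pos : 0 < P.Q2 (P.rad S c) (zz S c) := (h.mem c hc).1.2
lemma r_pos : 0 < P.rad S c := (h.mem c hc).2.1
lemma r_lt : P.rad S c < P.R := (h.mem c hc).2.2.1
lemma eta_pos : 0 < eta S c := (h.mem c hc).2.2.2

lemma ds_eta : ds (eta S) c = c.1 * eta S c ^ 2 * P.GG (P.rad S c) c.2.2 (zz S c) := by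
  obtain ⟨d, s, ζ⟩ := c
  exact (hasDerivAt_ds (dAt h.eta_s _)).unique
    ((ContinuousLinearMap.fst ℝ ℝ (ℝ × ℝ × ℝ)).hasFDerivAt.comp_hasDerivAt s (h.ode d s ζ hc))

lemma ode2 : HasDerivAt (fun t => (S (c.1, t, c.2.2)).2) (P.fld (c, S c)).2 c.2.1 :=
  (ContinuousLinearMap.snd ℝ ℝ (ℝ × ℝ × ℝ)).hasFDerivAt.comp_hasDerivAt c.2.1
    (h.ode c.1 c.2.1 c.2.2 hc)

lemma ode3 : HasDerivAt (fun t => (S (c.1, t, c.2.2)).2.2) (P.fld (c, S c)).2.2 c.2.1 :=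
  (ContinuousLinearMap.snd ℝ ℝ (ℝ × ℝ)).hasFDerivAt.comp_hasDerivAt c.2.1 (h.ode2 hc)

lemma ds_zz : ds (zz S) c = P.cf S c * (1 - zz S c ^ 2) * pp S c := by
  obtain ⟨d, s, ζ⟩ := c
  exact (hasDerivAt_ds (dAt h.zz_s _)).unique
    ((ContinuousLinearMap.fst ℝ ℝ (ℝ × ℝ)).hasFDerivAt.comp_hasDerivAt s (h.ode2 hc))

lemma ds_pp : ds (pp S) c = P.cf S c * zz S c * (pp S c ^ 2 + P.a ^ 2) := by
  obtain ⟨d, s, ζ⟩ := c
  exact (hasDerivAt_ds (dAt h.pp_s _)).unique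
    ((ContinuousLinearMap.fst ℝ ℝ ℝ).hasFDerivAt.comp_hasDerivAt s (h.ode3 hc))

lemma ds_hh : ds (hh S) c = -(c.1 * eta S c * P.WW (P.rad S c) (zz S c) / P.k) := by
  obtain ⟨d, s, ζ⟩ := c
  exact (hasDerivAt_ds (dAt h.hh_s _)).unique
    ((ContinuousLinearMap.snd ℝ ℝ ℝ).hasFDerivAt.comp_hasDerivAt s (h.ode3 hc))

lemma ds_rad : ds (P.rad S) c = P.cf S c * P.qq (P.rad S c) c.2.2 := by
  have h1 := h.ds_eta hc
  have h2 := GG_id (h.q_pos hc) (h.A_pos hc)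
  obtain ⟨d, s, ζ⟩ := c
  have h3 : HasDerivAt (fun t => P.m + t * d * eta S (d, t, ζ))
      (1 * d * eta S (d, s, ζ) + s * d * ds (eta S) (d, s, ζ)) s :=
    (((hasDerivAt_id s).mul_const d).mul (hasDerivAt_ds (dAt h.eta_s _))).const_add _
  rw [(hasDerivAt_ds (dAt h.rad_s _)).unique h3, h1, cf_eq]
  have h4 : P.rad S (d, s, ζ) - P.m = s * d * eta S (d, s, ζ) := by rw [rad_eq]; ring
  rw [h4] at h2
  simp only at h2 ⊢
  linear_combination d * eta S (d, s, ζ) * h2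

end C0

namespace C0

variable (h : C0 P ε S)
include h

lemma eta_one (d ζ : ℝ) : eta S (d, 1, ζ) = 1 := by simp [eta, h.init]
lemma zz_one (d ζ : ℝ) : zz S (d, 1, ζ) = ζ := by simp [zz, h.init]
lemma pp_one (d ζ : ℝ) : pp S (d, 1, ζ) = 0 := by simp [pp, h.init]
lemma hh_one (d ζ : ℝ) : hh S (d, 1, ζ) = 0 := by simp [hh, h.init]
lemma rad_one (d ζ : ℝ) : P.rad S (d, 1, ζ) = P.m + d := by simp [rad_eq, h.eta_one]

lemma dz_rad_one (d ζ : ℝ) : dz (P.rad S) (d, 1, ζ) = 0 := by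
  have h1 := hasDerivAt_dz (dAt h.rad_s (d, 1, ζ))
  simp only [h.rad_one] at h1
  exact h1.unique (hasDerivAt_const _ _)

lemma dz_zz_one (d ζ : ℝ) : dz (zz S) (d, 1, ζ) = 1 := by
  have h1 := hasDerivAt_dz (dAt h.zz_s (d, 1, ζ))
  simp only [h.zz_one] at h1
  exact h1.unique (hasDerivAt_id _)

lemma dz_pp_one (d ζ : ℝ) : dz (pp S) (d, 1, ζ) = 0 := by
  have h1 := hasDerivAt_dz (dAt h.pp_s (d, 1, ζ))
  simp only [h.pp_one] at h1
  exact h1.unique (hasDerivAt_const _ _)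

lemma dz_hh_one (d ζ : ℝ) : dz (hh S) (d, 1, ζ) = 0 := by
  have h1 := hasDerivAt_dz (dAt h.hh_s (d, 1, ζ))
  simp only [h.hh_one] at h1
  exact h1.unique (hasDerivAt_const _ _)

variable {c : R3} (hc : c ∈ bx ε)
include hc

/-- the conservation law (Carter constant) -/
lemma cons : (1 - zz S c ^ 2) * (pp S c ^ 2 + P.a ^ 2) = P.a ^ 2 * (1 - c.2.2 ^ 2) := by
  obtain ⟨d, s, ζ⟩ := c
  have h1 : ∀ x ∈ Ioo (-ε.2) (1 + ε.2), HasDerivAt
      (fun t => (1 - zz S (d, t, ζ) ^ 2) * (pp S (d, t, ζ) ^ 2 + P.a ^ 2)) 0 x := fun x hx => by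
    have hx' := bx_s hc hx
    have := (((hasDerivAt_ds (dAt h.zz_s (d, x, ζ))).pow 2).const_sub 1).mul
      (((hasDerivAt_ds (dAt h.pp_s (d, x, ζ))).pow 2).add_const (P.a ^ 2))
    refine this.congr_deriv ?_
    rw [h.ds_zz hx', h.ds_pp hx']
    simp only [Pi.pow_apply]
    push_cast
    ring
  have h2 := const_of_deriv h1 hc.2.1 (t := 1) ⟨by linarith [h.pos], by linarith [h.pos]⟩
  simp only [h.zz_one, h.pp_one] at h2
  rw [h2]
  ring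

lemma cons' : zz S c * dz (zz S) c * (pp S c ^ 2 + P.a ^ 2) -
    (1 - zz S c ^ 2) * pp S c * dz (pp S) c = P.a ^ 2 * c.2.2 := by
  obtain ⟨d, s, ζ⟩ := c
  have h1 := (((hasDerivAt_dz (dAt h.zz_s (d, s, ζ))).pow 2).const_sub 1).mul
      (((hasDerivAt_dz (dAt h.pp_s (d, s, ζ))).pow 2).add_const (P.a ^ 2))
  have h2 := (((hasDerivAt_id ζ).pow 2).const_sub 1).const_mul (P.a ^ 2)
  have h3 := h2.congr_of_eventuallyEq
    (f₁ := fun t => (1 - zz S (d, s, t) ^ 2) * (pp S (d, s, t) ^ 2 + P.a ^ 2))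
    ((bx_ev hc).mono fun t ht => h.cons ht)
  have h4 := h1.unique h3
  simp only [Pi.pow_apply, id] at h4
  push_cast at h4
  simp only
  linear_combination (-1 / 2) * h4

/-- q^2 + Delta (1 - z^2) p^2 = A -/
lemma qA : P.qq (P.rad S c) c.2.2 ^ 2 + P.Dl (P.rad S c) * (1 - zz S c ^ 2) * pp S c ^ 2 =
    P.Q2 (P.rad S c) (zz S c) := by
  rw [P.qq_sq (h.q_pos hc)]
  unfold Q2
  linear_combination P.Dl (P.rad S c) * h.cons hc

lemma Dl_eq : P.Dl (P.rad S c) = -((P.R - P.rad S c) * (c.2.1 * c.1 * eta S c)) := by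
  unfold Dl
  rw [rad_eq]
  ring

lemma Dl_neg (hd : 0 < c.1) (hs : 0 < c.2.1) : P.Dl (P.rad S c) < 0 := by
  rw [h.Dl_eq hc]
  have := h.eta_pos hc
  have := sub_pos.2 (h.r_lt hc)
  exact neg_neg_of_pos (by positivity)

lemma cf_s : P.k * c.2.1 * P.cf S c = -(P.Dl (P.rad S c) / P.Q2 (P.rad S c) (zz S c)) := by
  have := h.A_pos hc
  have := P.k_pos
  rw [h.Dl_eq hc, cf_eq]
  field_simp

/-- the form (q / Delta) dr + p dz on d/ds -/
lemma beta_s (hd : 0 < c.1) (hs : 0 < c.2.1) :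
    P.qq (P.rad S c) c.2.2 / P.Dl (P.rad S c) * ds (P.rad S) c + pp S c * ds (zz S) c =
      -(1 / (P.k * c.2.1)) := by
  have h1 := h.cf_s hc
  have h2 := h.qA hc
  have h3 := (h.Dl_neg hc hd hs).ne
  have h4 := (h.A_pos hc).ne'
  have h5 := P.k_pos.ne'
  have h6 : P.cf S c = -(P.Dl (P.rad S c) / P.Q2 (P.rad S c) (zz S c)) / (P.k * c.2.1) := by
    rw [← h1]
    field_simp
  rw [h.ds_rad hc, h.ds_zz hc, h6]
  field_simp
  linear_combination -h2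

/-- the eikonal equation: the form (q / Delta) dr + p dz is zero on d/dzeta -/
lemma beta_z (hd : 0 < c.1) (hs : 0 < c.2.1) :
    P.qq (P.rad S c) c.2.2 / P.Dl (P.rad S c) * dz (P.rad S) c + pp S c * dz (zz S) c = 0 := by
  obtain ⟨d, s, ζ⟩ := c
  have h1 : ∀ x ∈ Ioo (0 : ℝ) (1 + ε.2), HasDerivAt
      (fun t => P.qq (P.rad S (d, t, ζ)) ζ / P.Dl (P.rad S (d, t, ζ)) * dz (P.rad S) (d, t, ζ) +
        pp S (d, t, ζ) * dz (zz S) (d, t, ζ)) 0 x := fun x hx => by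
    have hx' : ((d, x, ζ) : R3) ∈ bx ε := bx_s hc ⟨by linarith [hx.1, h.pos], hx.2⟩
    have hD := (h.Dl_neg hx' hd hx.1).ne
    have hq := P.qq_pos (h.q_pos hx')
    have a1 := ((hasDerivAt_m (P := P) (hasDerivAt_ds (dAt h.rad_s (d, x, ζ)))
      (hasDerivAt_const x ζ) (h.q_pos hx') hD).mul
      (hasDerivAt_ds (dAt (dz_smooth h.rad_s) (d, x, ζ)))).add
      ((hasDerivAt_ds (dAt h.pp_s (d, x, ζ))).mul
      (hasDerivAt_ds (dAt (dz_smooth h.zz_s) (d, x, ζ))))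
    have a2 := ((hasDerivAt_m (P := P) (hasDerivAt_dz (dAt h.rad_s (d, x, ζ)))
      (hasDerivAt_id ζ) (h.q_pos hx') hD).mul
      (hasDerivAt_dz (dAt (ds_smooth h.rad_s) (d, x, ζ)))).add
      ((hasDerivAt_dz (dAt h.pp_s (d, x, ζ))).mul
      (hasDerivAt_dz (dAt (ds_smooth h.zz_s) (d, x, ζ))))
    have a3 := (hasDerivAt_const ζ (-(1 / (P.k * x)))).congr_of_eventuallyEq
      (f₁ := fun t => P.qq (P.rad S (d, x, t)) t / P.Dl (P.rad S (d, x, t)) *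
        ds (P.rad S) (d, x, t) + pp S (d, x, t) * ds (zz S) (d, x, t))
      ((bx_ev hx').mono fun t ht => h.beta_s ht hd hx.1)
    have a4 := a2.unique a3
    refine a1.congr_deriv ?_
    have a5 := h.cons' hx'
    rw [ds_dz h.rad_s, ds_dz h.zz_s, h.ds_pp hx']
    rw [h.ds_zz hx'] at a4
    simp only [id] at a4 a5 ⊢
    have a6 : P.a ^ 2 * ζ / P.qq (P.rad S (d, x, ζ)) ζ * ds (P.rad S) (d, x, ζ) =
        P.a ^ 2 * ζ * P.cf S (d, x, ζ) := by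
      rw [h.ds_rad hx']
      simp only at hq ⊢
      field_simp
    linear_combination a4 + P.cf S (d, x, ζ) * a5 - a6
  have h2 := const_of_deriv h1 (s := s) ⟨hs, hc.2.1.2⟩ (t := 1) ⟨one_pos, by linarith [h.pos]⟩
  simp only [h.dz_rad_one, h.pp_one] at h2
  simp only
  rw [h2]
  ring

lemma dz_rad (hd : 0 < c.1) (hs : 0 < c.2.1) : dz (P.rad S) c =
    -(P.Dl (P.rad S c) * pp S c * dz (zz S) c / P.qq (P.rad S c) c.2.2) := by
  have h1 := h.beta_z hc hd hs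
  have h2 := (h.Dl_neg hc hd hs).ne
  have h3 := (P.qq_pos (h.q_pos hc)).ne'
  field_simp at h1 ⊢
  linear_combination h1

lemma dz_rad' (hd : 0 < c.1) (hs : 0 ≤ c.2.1) : dz (P.rad S) c =
    -(P.Dl (P.rad S c) * pp S c * dz (zz S) c / P.qq (P.rad S c) c.2.2) := by
  rcases hs.eq_or_lt with h0 | h0
  · obtain ⟨d, s, ζ⟩ := c
    simp only at h0
    subst h0
    have h1 := hasDerivAt_dz (dAt h.rad_s (d, 0, ζ))
    simp only [rad_eq, zero_mul, add_zero] at h1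
    rw [h1.unique (hasDerivAt_const _ _), h.Dl_eq hc]
    simp
  · exact h.dz_rad hc hd h0

end C0

end Vale.Agent.P354RG
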