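import Vale.Agent.P354RG.SFlow
import Vale.Agent.P354R.Slice

/-!
The coefficients and the isometry for the global characteristics (as in P354R.Coef, Iso, Slice).
-/

open scoped ContDiff
open Set Filter Topology

set_option linter.unusedSectionVars false
set_option maxSynthPendingDepth 3

namespace Vale.Agent.P354RG

open Vale.Agent.P354n (R4)
open Vale.Agent.P354R Par

section

variable {P : Par} {ε : ℝ × ℝ} {S : R3 → W4}

namespace C0

variable (h : C0 P ε S)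
include h

lemma sg_s : ContDiff ℝ ∞ (P.sg S) := by
  have := h.rad_s
  have := h.zz_s
  unfold sg
  fun_prop

lemma aA_s : ContDiff ℝ ∞ (P.aA S) :=
  contDiffOn_univ.1 (P.Q2_smooth h.rad_s.contDiffOn h.zz_s.contDiffOn)

lemma aQ_s : ContDiff ℝ ∞ (P.aQ S) :=
  contDiffOn_univ.1 (P.Q2_smooth h.rad_s.contDiffOn (by fun_prop))

lemma eE_s : ContDiff ℝ ∞ (P.eE S) := by
  have := h.pp_s
  exact ContDiff.div contDiff_const (by fun_prop) fun c => (P.p2_pos S c).ne'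

lemma eT_s : ContDiff ℝ ∞ (P.eT S) := by
  have := h.pp_s
  have := h.eE_s
  have := dz_smooth h.pp_s
  exact ContDiff.div (by fun_prop) (by fun_prop) fun c => (P.p2_pos S c).ne'

lemma eB_s : ContDiff ℝ ∞ (P.eB S) := by
  have := h.eE_s
  have := h.eT_s
  have := dz_smooth h.zz_s
  unfold eB
  fun_prop

lemma sg_pos {c : R3} (hc : c ∈ bx ε) : 0 < P.sg S c := by
  have := h.r_pos hc
  unfold sg
  positivity

variable {c : R3} (hc : c ∈ bx ε)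
include hc

lemma one_sub : 1 - zz S c ^ 2 = (1 - c.2.2 ^ 2) * P.eE S c := by
  have h1 := h.cons hc
  have h2 := P.p2_pos S c
  unfold eE
  field_simp
  linear_combination h1

lemma zz_dz : zz S c * dz (zz S) c = c.2.2 * P.eE S c + (1 - c.2.2 ^ 2) * P.eT S c := by
  have h1 := h.cons' hc
  have h2 := P.p2_pos S c
  rw [h.one_sub hc] at h1
  have h3 : c.2.2 * P.eE S c * (pp S c ^ 2 + P.a ^ 2) = P.a ^ 2 * c.2.2 := by
    unfold eE
    field_simp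
  unfold eT
  field_simp
  linear_combination h1 - h3

lemma dz_sq : dz (zz S) c ^ 2 = P.eE S c ^ 2 + (1 - c.2.2 ^ 2) * P.eB S c := by
  have h1 := h.one_sub hc
  have h2 := h.zz_dz hc
  unfold eB
  linear_combination dz (zz S) c ^ 2 * h1 +
    (zz S c * dz (zz S) c + c.2.2 * P.eE S c + (1 - c.2.2 ^ 2) * P.eT S c) * h2

lemma f2_id : P.f1 S c + (1 - c.2.2 ^ 2) * P.f2 S c =
    P.fL S c + P.f1 S c * (1 - c.2.2 ^ 2) ^ 2 * dz (hh S) c ^ 2 := by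
  have h1 := h.one_sub hc
  have h2 := h.dz_sq hc
  have h3 : P.aQ S c ≠ 0 := (h.q_pos hc).ne'
  have h4 := (h.sg_pos hc).ne'
  have h5 := (P.eE_pos S c).ne'
  have h6 : P.sg S c ^ 2 - P.aQ S c = (1 - c.2.2 ^ 2) * P.a ^ 2 * (P.Dl (P.rad S c) -
      P.eE S c * (P.rad S c ^ 2 + P.a ^ 2 + P.sg S c)) := by
    unfold aQ Q2 sg
    linear_combination -(P.a ^ 2 * (2 * P.rad S c ^ 2 + P.a ^ 2 + P.a ^ 2 * zz S c ^ 2)) * h1
  have h7 : P.f1 S c + (1 - c.2.2 ^ 2) * (P.aA S c * (P.sg S c ^ 2 * P.eB S c +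
      P.eE S c ^ 2 * P.a ^ 2 * (P.Dl (P.rad S c) - P.eE S c * (P.rad S c ^ 2 + P.a ^ 2 + P.sg S c))) /
      (P.aQ S c * P.eE S c * P.sg S c)) = P.fL S c := by
    unfold f1 fL
    rw [h2]
    field_simp
    linear_combination -(P.aA S c * P.eE S c ^ 2) * h6
  unfold f2
  linear_combination h7

lemma f0_pos : 0 < P.f0 S c :=
  div_pos (mul_pos (mul_pos (sub_pos.2 (h.r_lt hc)) (h.eta_pos hc)) (h.sg_pos hc)) (h.A_pos hc)

lemma f1_pos : 0 < P.f1 S c := div_pos (mul_pos (h.A_pos hc) (P.eE_pos S c)) (h.sg_pos hc)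

lemma fL_pos (hz : 0 < dz (zz S) c) : 0 < P.fL S c :=
  div_pos (mul_pos (mul_pos (h.sg_pos hc) (h.A_pos hc)) (pow_pos hz 2))
    (mul_pos (h.q_pos hc) (P.eE_pos S c))

lemma det_pos (hz : 0 < dz (zz S) c) : 0 < P.f1 S c * (P.f1 S c + (1 - c.2.2 ^ 2) * P.f2 S c) -
    (1 - c.2.2 ^ 2) ^ 2 * P.f3 S c ^ 2 := by
  rw [h.f2_id hc]
  have := mul_pos (h.f1_pos hc) (h.fL_pos hc hz)
  unfold f3
  linarith

lemma rho_f0 : c.1 * c.2.1 * P.f0 S c = -(P.Dl (P.rad S c) * P.sg S c / P.aA S c) := by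
  rw [h.Dl_eq hc]
  unfold f0
  ring

lemma rho_f4 : c.1 * c.2.1 * P.f4 S c =
    P.a * (P.rad S c ^ 2 + P.a ^ 2 - P.Dl (P.rad S c)) / P.aA S c - P.a / (P.m ^ 2 + P.a ^ 2) := by
  have h1 := WW_id (h.A_pos hc)
  have h2 : P.rad S c - P.m = c.2.1 * c.1 * eta S c := by rw [rad_eq]; ring
  rw [h2] at h1
  unfold f4 aA
  linear_combination h1

lemma ks_rad : -(P.k * c.2.1) * ds (P.rad S) c =
    P.Dl (P.rad S c) / P.aA S c * P.qq (P.rad S c) c.2.2 := by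
  rw [h.ds_rad hc]
  unfold aA
  linear_combination -P.qq (P.rad S c) c.2.2 * h.cf_s hc

lemma ks_zz : -(P.k * c.2.1) * ds (zz S) c =
    P.Dl (P.rad S c) / P.aA S c * ((1 - zz S c ^ 2) * pp S c) := by
  rw [h.ds_zz hc]
  unfold aA
  linear_combination -((1 - zz S c ^ 2) * pp S c) * h.cf_s hc

lemma ks_hh : -(P.k * c.2.1) * ds (hh S) c = c.1 * c.2.1 * P.f4 S c := by
  have := P.k_pos.ne'
  rw [h.ds_hh hc]
  unfold f4
  field_simp

end C0

namespace C0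

variable (h : C0 P ε S)
include h

lemma phi_smooth (d : ℝ) (σ : Bool) : ContDiff ℝ ∞ (P.phi S d σ) := by
  have h0 : ContDiff ℝ ∞ (arg P.k d σ) := arg_smooth σ
  have h1 := pol_smooth
  have h2 := h.rad_s
  have h3 := h.zz_s
  have h4 := h.hh_s
  unfold phi
  fun_prop

lemma fderiv_phi0 (d : ℝ) (σ : Bool) (w A : R4) : fderiv ℝ (P.phi S d σ) w A =
    (A.2.1, fderiv ℝ (fun w => P.rad S (arg P.k d σ (pol w))) w A,
      fderiv ℝ (fun w => zz S (arg P.k d σ (pol w))) w A,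
      A.2.2.2 - fderiv ℝ (fun w => hh S (arg P.k d σ (pol w))) w A +
        P.a / (P.m ^ 2 + P.a ^ 2) * A.2.1) := by
  have hl : ∀ f : R3 → ℝ, ContDiff ℝ ∞ f → HasDerivAt
      (fun t : ℝ => f (arg P.k d σ (pol (w + t • A))))
      (fderiv ℝ (fun w => f (arg P.k d σ (pol w))) w A) 0 := fun f hf =>
    (((hf.comp (arg_smooth σ)).comp pol_smooth).differentiable (by simp) w).hasFDerivAt.hasLineDerivAt A
  refine line_eq ((h.phi_smooth d σ).differentiable (by simp) w) ?_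
  exact (lin1 w.2.1 A.2.1).prodMk ((hl _ h.rad_s).prodMk ((hl _ h.zz_s).prodMk
    (((lin1 w.2.2.2 A.2.2.2).sub (hl _ h.hh_s)).add ((lin1 w.2.1 A.2.1).const_mul _))))

variable {d : ℝ} {σ : Bool} {w : R4} (hc : arg P.k d σ (pol w) ∈ bx ε) (hd : 0 < d)
include hc hd

lemma fderiv_phi (A : R4) (c : R3) (e : c = arg P.k d σ (pol w)) (u : ℝ)
    (eu : u = dht σ (pol w).2.2 (fderiv ℝ pol w A).2.2) : fderiv ℝ (P.phi S d σ) w A =
    (A.2.1, P.Dl (P.rad S c) / P.aA S c * P.qq (P.rad S c) c.2.2 * A.1 +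
        u * -(P.Dl (P.rad S c) * pp S c * dz (zz S) c / P.qq (P.rad S c) c.2.2),
      P.Dl (P.rad S c) / P.aA S c * ((1 - zz S c ^ 2) * pp S c) * A.1 + u * dz (zz S) c,
      A.2.2.2 - (c.1 * c.2.1 * P.f4 S c * A.1 + u * dz (hh S) c) +
        P.a / (P.m ^ 2 + P.a ^ 2) * A.2.1) := by
  have hs : c.2.1 = Real.exp (-P.k * w.1) := by rw [e]; rfl
  have hd' : 0 < c.1 := by rw [e]; exact hd
  rw [← e] at hc
  rw [h.fderiv_phi0, fderiv_argp h.rad_s, fderiv_argp h.zz_s, fderiv_argp h.hh_s, ← e, ← eu, ← hs,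
    ← h.ks_rad hc, ← h.ks_zz hc, ← h.ks_hh hc, ← h.dz_rad hc hd' (hs ▸ Real.exp_pos _)]
  simp only [Prod.mk.injEq, true_and]
  refine ⟨by ring, by ring, by ring⟩

lemma phi_mem (hw : 0 < w.2.2.1) : P.phi S d σ w ∈ kdom ((P.m + P.R) / 2) P.a := by
  refine ⟨?_, (h.sg_pos hc).ne', ?_⟩
  · rw [Del_eq]
    exact (h.Dl_neg hc hd (Real.exp_pos _)).ne
  · have := h.one_sub hc
    simp only [phi]
    rw [this]
    exact (mul_pos (one_sub_pos σ (pol_ne hw)) (P.eE_pos S _)).ne'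

theorem iso {F : ℕ → R3 → ℝ} (hF : ∀ i, F i (arg P.k d σ (pol w)) = P.ff S i (arg P.k d σ (pol w)))
    (hw : 0 < w.2.2.1) (A B : R4) :
    bg P.k d F σ (pol w) (fderiv ℝ pol w A) (fderiv ℝ pol w B) =
      kbl ((P.m + P.R) / 2) P.a (P.phi S d σ w) (fderiv ℝ (P.phi S d σ) w A)
        (fderiv ℝ (P.phi S d σ) w B) := by
  rw [h.fderiv_phi hc hd A _ rfl _ rfl, h.fderiv_phi hc hd B _ rfl _ rfl]
  have hw0 := one_sub_pos σ (pol_ne hw)
  have r1 := rnd_id σ (pol w).2.2 (hor P.k d F σ (pol w) (fderiv ℝ pol w A))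
    (hor P.k d F σ (pol w) (fderiv ℝ pol w B))
  have r2 : rnd (pol w).2.2 (hor P.k d F σ (pol w) (fderiv ℝ pol w A))
      (hor P.k d F σ (pol w) (fderiv ℝ pol w B)) = _ / (1 - ht σ (pol w).2.2 ^ 2) :=
    (eq_div_iff hw0.ne').2 ((mul_comm _ _).trans r1)
  have eA1 : ∀ A, (fderiv ℝ pol w A).1 = A.1 := fun A => by rw [fderiv_pol]
  have eA2 : ∀ A, (fderiv ℝ pol w A).2.1 = A.2.1 := fun A => by rw [fderiv_pol]
  unfold bg gam
  rw [r2]
  unfold hor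
  simp only [dht_sub, alp_sub σ, alp_pol σ, eA1, eA2, hF, ff]
  have e0 : rho P.k d (pol w) = (arg P.k d σ (pol w)).1 * (arg P.k d σ (pol w)).2.1 := rfl
  have e1 : ht σ (pol w).2.2 = (arg P.k d σ (pol w)).2.2 := rfl
  have hs : 0 < (arg P.k d σ (pol w)).2.1 := Real.exp_pos _
  have hd' : 0 < (arg P.k d σ (pol w)).1 := hd
  rw [e1] at hw0
  rw [e0, e1]
  simp only [kbl, phi, Del_eq]
  generalize arg P.k d σ (pol w) = c at *
  generalize dht σ (pol w).2.2 (fderiv ℝ pol w A).2.2 = u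
  generalize dht σ (pol w).2.2 (fderiv ℝ pol w B).2.2 = u'
  have k0 := h.rho_f0 hc
  have k4 := h.rho_f4 hc
  have k2 := h.f2_id hc
  have kq := h.qA hc
  have kw := h.one_sub hc
  have kD := (h.Dl_neg hc hd' hs).ne
  have kS := (h.sg_pos hc).ne'
  have kA : P.aA S c ≠ 0 := (h.A_pos hc).ne'
  have kE := (P.eE_pos S c).ne'
  have kq0 := (P.qq_pos (h.q_pos hc)).ne'
  have kQ : P.aQ S c = P.qq (P.rad S c) c.2.2 ^ 2 := (P.qq_sq (h.q_pos hc)).symm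
  have eS : P.sg S c = P.rad S c ^ 2 + P.a ^ 2 - P.a ^ 2 * (1 - zz S c ^ 2) := by
    unfold sg; ring
  have eS' : Sig P.a (P.rad S c) (zz S c) = P.sg S c := rfl
  have eAA : P.aA S c = (P.rad S c ^ 2 + P.a ^ 2) ^ 2 -
    P.a ^ 2 * (1 - zz S c ^ 2) * P.Dl (P.rad S c) := rfl
  change _ = P.aA S c at kq
  have kw1 : 1 - zz S c ^ 2 ≠ 0 := by rw [kw]; exact mul_ne_zero hw0.ne' kE
  have a1 := alg1 P.a (P.rad S c ^ 2 + P.a ^ 2) (1 - zz S c ^ 2) (P.Dl (P.rad S c)) A.2.1 B.2.1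
    (A.2.2.2 - (c.1 * c.2.1 * P.f4 S c * A.1 + u * dz (hh S) c) + P.a / (P.m ^ 2 + P.a ^ 2) * A.2.1)
    (B.2.2.2 - (c.1 * c.2.1 * P.f4 S c * B.1 + u' * dz (hh S) c) + P.a / (P.m ^ 2 + P.a ^ 2) * B.2.1)
    (eS ▸ kS) (eAA ▸ kA)
  have a2 := alg2 (P.sg S c) (P.Dl (P.rad S c)) (1 - zz S c ^ 2) (P.qq (P.rad S c) c.2.2) (pp S c)
    (dz (zz S) c) A.1 B.1 u u' kD kw1 kq0 (kq ▸ kA)
  rw [← eS, ← eAA] at a1
  rw [kq] at a2
  rw [eS', k0]
  have k5 : P.a * (P.rad S c ^ 2 + P.a ^ 2 - P.Dl (P.rad S c)) / P.aA S c =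
      c.1 * c.2.1 * P.f4 S c + P.a / (P.m ^ 2 + P.a ^ 2) := by rw [k4]; ring
  rw [k5] at a1
  have k6 : P.aA S c / P.sg S c * (1 - zz S c ^ 2) = P.f1 S c * (1 - c.2.2 ^ 2) := by
    rw [kw]; unfold f1; ring
  have k7 : P.sg S c * P.aA S c * dz (zz S) c ^ 2 / (P.qq (P.rad S c) c.2.2 ^ 2 * (1 - zz S c ^ 2)) =
      P.fL S c / (1 - c.2.2 ^ 2) := by
    rw [kw]; unfold fL; rw [kQ]; field_simp
  have k8 : P.f2 S c = (P.fL S c + P.f1 S c * (1 - c.2.2 ^ 2) ^ 2 * dz (hh S) c ^ 2 - P.f1 S c) /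
      (1 - c.2.2 ^ 2) := by
    rw [eq_div_iff hw0.ne']
    linear_combination k2
  rw [k6] at a1
  rw [k7] at a2
  rw [k8]
  unfold f3
  have hw1 := hw0.ne'
  generalize 1 - c.2.2 ^ 2 = w0 at *
  have k9 : ∀ X Y : ℝ, P.f1 S c * ((u * u' + (w0 * X) * (w0 * Y)) / w0) =
      P.f1 S c * (u * u') / w0 + P.f1 S c * w0 * (X * Y) := fun X Y => by field_simp
  have k10 : (P.fL S c + P.f1 S c * w0 ^ 2 * dz (hh S) c ^ 2 - P.f1 S c) / w0 =
      P.fL S c / w0 + P.f1 S c * w0 * dz (hh S) c ^ 2 - P.f1 S c / w0 := by field_simp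
  have k11 := k9 (A.2.2.2 - c.1 * c.2.1 * P.f4 S c * (A.1 + A.2.1))
    (B.2.2.2 - c.1 * c.2.1 * P.f4 S c * (B.1 + B.2.1))
  rw [k10]
  linear_combination k11 - a1 - a2

end C0

end

/-- the domains -/
def dm (k δ : ℝ) : Set R4 := {p | Real.exp (-k * p.1) < 1 + δ}
def pdm (k δ : ℝ) : Set R4 := {w | w ∈ dm k δ ∧ 0 < w.2.2.1}
def odm (k δ : ℝ) : Set R4 := {p | p ∈ dm k δ ∧ p.2.2 ≠ 0}

lemma dm_open (k δ : ℝ) : IsOpen (dm k δ) := isOpen_lt (by fun_prop) continuous_const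
lemma pdm_open (k δ : ℝ) : IsOpen (pdm k δ) :=
  (dm_open k δ).inter (isOpen_lt (f := fun _ : R4 => (0 : ℝ)) continuous_const (by fun_prop))
lemma odm_open (k δ : ℝ) : IsOpen (odm k δ) :=
  (dm_open k δ).inter (isOpen_ne_fun (f := fun p : R4 => p.2.2) (by fun_prop) continuous_const)

lemma pull_pl {g : R4 → R4 → R4 → ℝ} {k δ : ℝ} (hg : Met g univ) :
    Pull pol (gP g) (pdm k δ) g (odm k δ) :=
  ⟨pdm_open k δ, odm_open k δ, hg.mono (subset_univ _), pol_smooth.contDiffOn,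
    fun _ hw => ⟨hw.1, pol_ne hw.2⟩, fun _ hw => pol_inj hw.2, fun _ _ _ _ => rfl⟩

lemma zero_mem_dm (k : ℝ) {δ : ℝ} (h : 0 < δ) (z : ℝ × ℝ × ℝ) : ((0, z) : R4) ∈ dm k δ := by
  simp only [dm, mem_ofPred_eq, mul_zero, Real.exp_zero]
  linarith

/-- The data of the construction. -/
structure Cons (P : Par) (d δ δ' : ℝ) (S : R3 → W4) (F : ℕ → R3 → ℝ) : Prop where
  chr : C0 P (d, δ') S
  pos0 : 0 < d ∧ 0 < δ
  smooth : ∀ i, ContDiff ℝ ∞ (F i)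
  pos : ∀ d s, ∀ z ∈ Icc (-1 : ℝ) 1, 0 < F 0 (d, s, z) ∧ 0 < F 1 (d, s, z) ∧
    0 < F 1 (d, s, z) * (F 1 (d, s, z) + (1 - z ^ 2) * F 2 (d, s, z)) -
      (1 - z ^ 2) ^ 2 * F 3 (d, s, z) ^ 2
  eq : ∀ i, ∀ s ∈ Icc (0 : ℝ) (1 + δ), ∀ z, |z| ≤ 1 →
    (d, s, z) ∈ bx (d, δ') ∧ F i (d, s, z) = P.ff S i (d, s, z)

namespace Cons

variable {P : Par} {d δ δ' : ℝ} {S : R3 → W4} {F : ℕ → R3 → ℝ} (h : Cons P d δ δ' S F) (σ : Bool)
include h

lemma at_arg {p : R4} (hp : p ∈ dm P.k δ) :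
    arg P.k d σ p ∈ bx (d, δ') ∧ ∀ i, F i (arg P.k d σ p) = P.ff S i (arg P.k d σ p) := by
  have := fun i => h.eq i _ ⟨(Real.exp_pos _).le, le_of_lt hp⟩ _ (abs_ht σ p.2.2)
  exact ⟨(this 0).1, fun i => (this i).2⟩

lemma met (D : Set R4) : Met (bg P.k d F σ) D := bg_met σ h.smooth h.pos h.pos0.1 D

lemma pull_phi (hK : K1) : Pull (P.phi S d σ) (gP (bg P.k d F σ)) (pdm P.k δ)
    (kbl ((P.m + P.R) / 2) P.a) (kdom ((P.m + P.R) / 2) P.a) := by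
  have hm := P354RC.k2.1 _ _ _ _ _ (pull_pl (k := P.k) (δ := δ) (h.met σ univ))
  have hiso : ∀ w ∈ pdm P.k δ, ∀ a b, gP (bg P.k d F σ) w a b =
      kbl ((P.m + P.R) / 2) P.a (P.phi S d σ w) (fderiv ℝ (P.phi S d σ) w a)
        (fderiv ℝ (P.phi S d σ) w b) := fun w hw a b =>
    h.chr.iso (h.at_arg σ (p := pol w) hw.1).1 h.pos0.1 (h.at_arg σ (p := pol w) hw.1).2 hw.2 a b
  refine ⟨pdm_open _ _, kdom_open _ _, (hK _ _).1, (h.chr.phi_smooth d σ).contDiffOn,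
    fun w hw => h.chr.phi_mem (h.at_arg σ (p := pol w) hw.1).1 h.pos0.1 hw.2, fun w hw => ?_, hiso⟩
  refine (injective_iff_map_eq_zero _).2 fun A hA => hm.nondeg w hw A fun b => ?_
  rw [hiso w hw, hA]
  simp [kbl]

theorem vac (hK : K1) : Vac (bg P.k d F σ) (dm P.k δ) := by
  have h1 := P354RC.k2.2.1 _ _ _ _ _ (h.pull_phi σ hK) (hK _ _).2
  have h2 := P354RC.k2.2.2.1 _ _ _ _ _ (pull_pl (k := P.k) (δ := δ) (h.met σ univ)) (fun p hp => by
    obtain ⟨w, e, hw⟩ := pol_surj hp.2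
    refine ⟨w, ⟨?_, hw⟩, e⟩
    have := hp.1
    rw [← e] at this
    exact this) h1
  refine P354RC.k2.2.2.2.1 _ _ _ (dm_open _ _) (odm_open _ _) (fun p hp => hp.1)
    (mem_closure_axis fun p hp q e => ?_) (h.met σ _) h2
  simp only [dm, mem_ofPred_eq, e]
  exact hp

lemma at_one (y : ℝ × ℝ) : ((d, 1, ht σ y) : R3) ∈ bx (d, δ') ∧
    ∀ i, F i (d, 1, ht σ y) = P.ff S i (d, 1, ht σ y) := by
  have := h.at_arg σ (zero_mem_dm P.k h.pos0.2 (0, y))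
  rwa [arg_zero] at this

variable {M : ℝ} (hM : (P.m + P.R) / 2 = M) (ho : omm M P.a = P.a / (P.m ^ 2 + P.a ^ 2))
include hM ho

theorem first (z A B : ℝ × ℝ × ℝ) :
    bg P.k d F σ (0, z) (0, A) (0, B) = hK M P.a (P.m + d) σ z A B := by
  subst hM
  obtain ⟨hc, hF⟩ := h.at_one σ z.2
  have k0 := h.chr.rho_f0 hc
  have k4 := h.chr.rho_f4 hc
  have kS := (h.chr.sg_pos hc).ne'
  have kA : P.aA S (d, 1, ht σ z.2) ≠ 0 := (h.chr.A_pos hc).ne'
  have ha := P.a2_pos.ne'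
  have e1 : P.f1 S (d, 1, ht σ z.2) = P.aA S (d, 1, ht σ z.2) / P.sg S (d, 1, ht σ z.2) := by
    simp only [f1, eE, h.chr.pp_one]
    field_simp
    ring
  have e2 : P.f2 S (d, 1, ht σ z.2) = P.a ^ 2 * (P.Dl (P.m + d) - ((P.m + d) ^ 2 + P.a ^ 2 +
      P.sg S (d, 1, ht σ z.2))) / P.sg S (d, 1, ht σ z.2) := by
    have eQ : P.aQ S (d, 1, ht σ z.2) = P.aA S (d, 1, ht σ z.2) := by
      simp only [aQ, aA, h.chr.zz_one]
    have eE1 : P.eE S (d, 1, ht σ z.2) = 1 := by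
      simp only [eE, h.chr.pp_one]
      field_simp
      ring
    simp only [f2, eB, eT, eE1, eQ, h.chr.pp_one, h.chr.dz_zz_one, h.chr.dz_hh_one, h.chr.rad_one]
    field_simp
    ring
  have e3 : P.f3 S (d, 1, ht σ z.2) = 0 := by simp [f3, h.chr.dz_hh_one]
  have r1 := rnd_id σ z.2 A.2 B.2
  have eS : P.sg S (d, 1, ht σ z.2) = Sig P.a (P.m + d) (ht σ z.2) := by
    simp only [sg, Sig, h.chr.rad_one, h.chr.zz_one]
  have a3 := alg3 P.a ((P.m + d) ^ 2 + P.a ^ 2) (1 - ht σ z.2 ^ 2) (P.Dl (P.m + d)) A.1 B.1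
    (alp z.2 A.2) (alp z.2 B.2) (rnd z.2 A.2 B.2) (P.a / (P.m ^ 2 + P.a ^ 2))
    (P.sg S (d, 1, ht σ z.2)) (P.aA S (d, 1, ht σ z.2)) (by rw [eS]; unfold Sig; ring)
    (by simp only [aA, Q2, h.chr.rad_one, h.chr.zz_one]) kS kA
  simp only [h.chr.rad_one, mul_one] at k0 k4
  simp only [bg, gam, hor, arg_zero, rho_zero, hF, ff, hK, kerr, dht_sub, alp_sub σ, rnd_sub σ,
    alp_add σ, rnd_add σ, ho, e1, e2, e3, k0, k4, Del_eq, ← eS]
  linear_combination a3 + P.a ^ 2 * (P.Dl (P.m + d) - ((P.m + d) ^ 2 + P.a ^ 2 +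
      P.sg S (d, 1, ht σ z.2))) / P.sg S (d, 1, ht σ z.2) * (-r1)

theorem second_off (z : ℝ × ℝ × ℝ) (hz : z.2 ≠ 0) (A B : ℝ × ℝ × ℝ) :
    -P354R.chr (bg P.k d F σ) (0, z) (0, A) (0, B) (nrm P.k d F σ (0, z)) =
      kK M P.a (P.m + d) σ z A B := by
  subst hM
  obtain ⟨w, ew, hw⟩ := pol_surj (p := (0, z)) hz
  have hw1 : w.1 = 0 := congrArg Prod.fst ew
  have hwd : w ∈ pdm P.k δ := ⟨by simpa [dm, hw1] using h.pos0.2, hw⟩
  obtain ⟨a, ea⟩ := P354RC.surj_of_inj (pol_inj hw) (0, A)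
  obtain ⟨b, eb⟩ := P354RC.surj_of_inj (pol_inj hw) (0, B)
  obtain ⟨c, ec⟩ := P354RC.surj_of_inj (pol_inj hw) (nrm P.k d F σ (0, z))
  have e1 : ∀ w A : R4, (fderiv ℝ pol w A).1 = A.1 := fun w A => by rw [fderiv_pol]
  have e2 : ∀ w A : R4, (fderiv ℝ pol w A).2.1 = A.2.1 := fun w A => by rw [fderiv_pol]
  have a1 : a.1 = 0 := by rw [← e1 w a, ea]
  have b1 : b.1 = 0 := by rw [← e1 w b, eb]
  have a2 : a.2.1 = A.1 := by rw [← e2 w a, ea]
  have b2 : b.2.1 = B.1 := by rw [← e2 w b, eb]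
  have k1 := P354RC.k2.2.2.2.2 _ _ _ _ _ (pull_pl (k := P.k) (δ := δ) (h.met σ univ)) w hwd a b c
  rw [ew, ea, eb, ec, bg_nrm _ _ _ _ _ _ (snd_comp pol_smooth (ContinuousLinearMap.fst ℝ ℝ _) w a b
    fun t => (e1 _ b).trans b1), add_zero] at k1
  have k2 := P354RC.k2.2.2.2.2 _ _ _ _ _ (h.pull_phi σ P354RK.k1) w hwd a b c
  rw [← k1, k2]
  obtain ⟨hc, hF⟩ := h.at_one σ z.2
  have earg : arg P.k d σ (pol w) = (d, 1, ht σ z.2) := by rw [ew, arg_zero]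
  have hc' : arg P.k d σ (pol w) ∈ bx (d, δ') := earg ▸ hc
  have hw0 := one_sub_pos σ hz
  have ey : (pol w).2.2 = z.2 := by rw [ew]
  have fa := h.chr.fderiv_phi hc' h.pos0.1 a _ earg.symm _ rfl
  have fb := h.chr.fderiv_phi hc' h.pos0.1 b _ earg.symm _ rfl
  have fc := h.chr.fderiv_phi hc' h.pos0.1 c _ earg.symm _ rfl
  have hal := fun A => alp_pol σ w A
  rw [ey] at fa fb fc hal
  have ha4 := hal a
  have hb4 := hal b
  have hc4 := hal c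
  rw [ea] at fa ha4
  rw [eb] at fb hb4
  rw [ec] at fc hc4
  set N := (√(d * P.f0 S (d, 1, ht σ z.2)))⁻¹ with hN
  have en : nrm P.k d F σ (0, z) = (N, 0, (N * (d * P.f4 S (d, 1, ht σ z.2))) • rot z.2) := by
    simp only [nrm, rho_zero, arg_zero, hF, ff, hN, Prod.smul_mk, smul_eq_mul, mul_one, mul_zero,
      smul_smul]
  have c1 : c.1 = N := by rw [← e1 w c, ec, en]
  have c2 : c.2.1 = 0 := by rw [← e2 w c, ec, en]
  have c4 : c.2.2.2 = N * (d * P.f4 S (d, 1, ht σ z.2)) := by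
    have := alp_add σ z.2 0 (N * (d * P.f4 S (d, 1, ht σ z.2)))
    rw [en] at hc4
    simp only [zero_add] at this hc4
    rw [this] at hc4
    simp only [alp, Prod.fst_zero, Prod.snd_zero, mul_zero, sub_self, zero_div, zero_add] at hc4
    exact (mul_left_cancel₀ hw0.ne' ((mul_comm _ _).trans hc4)).symm
  have c3 : dht σ z.2 (nrm P.k d F σ (0, z)).2.2 = 0 := by
    have := dht_sub σ z.2 0 (-(N * (d * P.f4 S (d, 1, ht σ z.2))))
    rw [en]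
    simp only [neg_smul, sub_neg_eq_add, zero_add] at this
    rw [this]
    simp [dht]
  simp only [h.chr.rad_one, h.chr.pp_one, h.chr.zz_one, h.chr.dz_zz_one, h.chr.dz_hh_one, a1, b1,
    a2, b2, c1, c2, c3, c4, mul_zero, zero_mul, zero_div, neg_zero, add_zero, zero_add, mul_one,
    sub_zero] at fa fb fc
  rw [mul_comm N, sub_self] at fc
  set ν := P.Dl (P.m + d) / P.aA S (d, 1, ht σ z.2) * P.qq (P.m + d) (ht σ z.2) * N with hν
  have ephi : P.phi S d σ w = (w.2.1, P.m + d, ht σ z.2,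
      w.2.2.2 + P.a / (P.m ^ 2 + P.a ^ 2) * w.2.1) := by
    simp only [phi, earg, h.chr.rad_one, h.chr.zz_one, h.chr.hh_one, sub_zero]
  have k3 : (fderiv ℝ (fun z => fderiv ℝ (P.phi S d σ) z b) w a).2.1 = 0 := by
    refine snd_comp (h.chr.phi_smooth d σ) ((ContinuousLinearMap.fst ℝ ℝ _).comp
      (ContinuousLinearMap.snd ℝ ℝ _)) w a b fun t => ?_
    have et : arg P.k d σ (pol (w + t • a)) = (d, 1, ht σ (pol (w + t • a)).2.2) := by
      simp [arg, pol, hw1, a1]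
    rw [h.chr.fderiv_phi0, fderiv_argp h.chr.rad_s, et, h.chr.dz_rad_one, b1]
    simp
  have k4 : ∀ x V : R4, V.2.1 = 0 → kbl ((P.m + P.R) / 2) P.a x V (0, ν, 0, 0) = 0 :=
    fun x V hV => by simp [kbl, hV]
  rw [fa, fb, fc, k4 _ _ k3, add_zero, ephi]
  have hr : 0 < P.m + d := add_pos P.hm h.pos0.1
  have hev : (fun s => hK ((P.m + P.R) / 2) P.a s σ z A B) =ᶠ[𝓝 (P.m + d)] fun s =>
      kbl ((P.m + P.R) / 2) P.a (w.2.1, s, ht σ z.2, w.2.2.2 + P.a / (P.m ^ 2 + P.a ^ 2) * w.2.1)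
        (A.1, 0, dht σ z.2 A.2, a.2.2.2 + P.a / (P.m ^ 2 + P.a ^ 2) * A.1)
        (B.1, 0, dht σ z.2 B.2, b.2.2.2 + P.a / (P.m ^ 2 + P.a ^ 2) * B.1) := by
    filter_upwards [Ioi_mem_nhds hr] with s hs
    have hs' : (0 : ℝ) < s := hs
    have d1 := fun (V : ℝ × ℝ) (c : ℝ) => dht_sub σ z.2 V (-c)
    simp only [neg_smul, sub_neg_eq_add] at d1
    have := kerr_eq ((P.m + P.R) / 2) P.a σ z.1 s (w.2.2.2 + P.a / (P.m ^ 2 + P.a ^ 2) * w.2.1) z.2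
      A.1 B.1 (A.2 + (P.a / (P.m ^ 2 + P.a ^ 2) * A.1) • rot z.2)
      (B.2 + (P.a / (P.m ^ 2 + P.a ^ 2) * B.1) • rot z.2)
      (a.2.2.2 + P.a / (P.m ^ 2 + P.a ^ 2) * A.1) (b.2.2.2 + P.a / (P.m ^ 2 + P.a ^ 2) * B.1)
      hw0.ne' (by unfold Sig; positivity) (by rw [alp_add σ, ha4]; ring)
      (by rw [alp_add σ, hb4]; ring)
    rw [d1, d1] at this
    simp only [hK, ho]
    rw [this]
    rfl
  have hD : HasDerivAt (fun s => hK ((P.m + P.R) / 2) P.a s σ z A B)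
      (deriv (fun s => hK ((P.m + P.R) / 2) P.a s σ z A B) (P.m + d)) (P.m + d) := by
    have h1 : DifferentiableAt ℝ (fun s : ℝ => ((s, z) : ℝ × ℝ × ℝ × ℝ)) (P.m + d) := by fun_prop
    exact (DifferentiableAt.comp (f := fun s : ℝ => ((s, z) : ℝ × ℝ × ℝ × ℝ)) (P.m + d)
      ((hK_cd _ _ σ A B hr z).differentiableAt (by simp)) h1).hasDerivAt
  have hD2 := (hD.congr_of_eventuallyEq hev.symm)
  have hD3 : HasDerivAt (fun t : ℝ => P.m + d + t * ν) ν 0 := lin1 _ _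
  have hD4 := (HasDerivAt.comp_of_eq 0 hD2 hD3 (by simp)).deriv
  have kν : ν = -√(-(Del ((P.m + P.R) / 2) P.a (P.m + d) / Sig P.a (P.m + d) (ht σ z.2))) := by
    have k0 := h.chr.rho_f0 hc
    have kD := h.chr.Dl_neg hc h.pos0.1 one_pos
    have kS := h.chr.sg_pos hc
    have kA := h.chr.A_pos hc
    have eS : P.sg S (d, 1, ht σ z.2) = Sig P.a (P.m + d) (ht σ z.2) := by
      simp only [sg, Sig, h.chr.rad_one, h.chr.zz_one]
    have eA : P.aA S (d, 1, ht σ z.2) = P.Q2 (P.m + d) (ht σ z.2) := by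
      simp only [aA, h.chr.rad_one, h.chr.zz_one]
    simp only [h.chr.rad_one, h.chr.zz_one, mul_one] at k0 kD kA
    rw [eS] at kS
    rw [hν, hN, k0, eS, eA, Del_eq]
    have q2 := P.qq_sq kA
    have q0 := P.qq_pos kA
    rw [← q2]
    generalize P.qq (P.m + d) (ht σ z.2) = q at *
    generalize Sig P.a (P.m + d) (ht σ z.2) = Sg at *
    generalize P.Dl (P.m + d) = D at *
    have h1 : 0 < -(D / Sg) := neg_pos.2 (div_neg_of_neg_of_pos kD kS)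
    have s1 := Real.sqrt_pos.2 h1
    have s2 := Real.sq_sqrt h1.le
    have s3 : √(-(D * Sg / q ^ 2)) = √(-(D / Sg)) * Sg / q := by
      have s4 : -(D * Sg / q ^ 2) = -(D / Sg) * Sg ^ 2 / q ^ 2 := by field_simp
      rw [Real.sqrt_eq_iff_mul_self_eq (by rw [s4]; positivity) (by positivity)]
      have : D = -(√(-(D / Sg)) ^ 2 * Sg) := by rw [s2]; field_simp
      generalize √(-(D / Sg)) = u at *
      rw [this]
      field_simp
    rw [s3]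
    have : D = -(√(-(D / Sg)) ^ 2 * Sg) := by rw [s2]; field_simp
    generalize √(-(D / Sg)) = u at *
    rw [this]
    field_simp
  have k5 : ∀ x V W : R4, V.2.1 = 0 → P354n.deriv (fun y => kbl ((P.m + P.R) / 2) P.a y V
      (0, ν, 0, 0)) x W = 0 := fun x V W hV => by
    simp only [k4 _ V hV, P354n.deriv, lineDeriv, deriv_const]
  unfold P354R.chr
  rw [k5 _ _ _ rfl, k5 _ _ _ rfl]
  simp only [P354n.deriv, lineDeriv, Prod.smul_mk, Prod.mk_add_mk, smul_eq_mul, mul_zero, add_zero]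
  simp only [Function.comp_def] at hD4
  rw [hD4, kK, kν]
  ring

theorem second (z A B : ℝ × ℝ × ℝ) :
    -P354R.chr (bg P.k d F σ) (0, z) (0, A) (0, B) (nrm P.k d F σ (0, z)) =
      kK M P.a (P.m + d) σ z A B := by
  have h1 : Continuous fun z : ℝ × ℝ × ℝ => nrm P.k d F σ (0, z) := by
    have h0 := (ht_smooth σ).continuous
    have h4 := (h.smooth 4).continuous
    have h5 := (h.smooth 0).continuous
    simp only [nrm, rho_zero, arg_zero, rot]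
    have h6 : Continuous fun z : ℝ × ℝ × ℝ => (√(d * F 0 (d, 1, ht σ z.2)))⁻¹ :=
      Continuous.inv₀ (by fun_prop) fun z =>
        (Real.sqrt_pos.2 (mul_pos h.pos0.1 (h.pos d 1 _ (ht_mem σ z.2)).1)).ne'
    fun_prop
  have h2 : Continuous fun p : R4 =>
      -P354R.chr (bg P.k d F σ) (0, p.2) (0, A) (0, B) (nrm P.k d F σ (0, p.2)) :=
    (chr_cont (h.met σ univ) (0, A) (0, B) (f := fun p => (0, p.2))
      (n := fun p => nrm P.k d F σ (0, p.2)) (continuous_const.prodMk continuous_snd)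
      (h1.comp continuous_snd)).neg
  have h3 : Continuous fun p : R4 => kK M P.a (P.m + d) σ p.2 A B :=
    (kK_cont M P.a σ A B (add_pos P.hm h.pos0.1)).comp continuous_snd
  have h4 := mem_closure_axis (D := univ) (fun _ _ _ _ => mem_univ _) (mem_univ ((0, z) : R4))
  have h5 : {p : R4 | p ∈ univ ∧ p.2.2 ≠ 0} ⊆ {p : R4 |
      -P354R.chr (bg P.k d F σ) (0, p.2) (0, A) (0, B) (nrm P.k d F σ (0, p.2)) =
        kK M P.a (P.m + d) σ p.2 A B} := fun p hp => h.second_off σ hM ho p.2 hp.2 A B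
  have h6 := (isClosed_eq h2 h3).closure_subset_iff.2 h5 h4
  exact h6

end Cons

end Vale.Agent.P354RG
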