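import Vale.Agent.P354RG.Bnd
import Vale.Agent.P354R.Bnd
import Vale.Agent.P354R.Lift
import Vale.Agent.P354I.Core2

/-!
The fields smooth, bound, cont of IsKF from the form mu ^ nn Z + U0 of the unknowns.
-/

open scoped ContDiff
open Set Filter Topology

namespace Vale.Agent.P354RG

open Vale.Agent.P354n (R4)
open Vale.Agent.P354H (X3 Sb)
open Vale.Agent.P354C (Ix SmU)
open Vale.Agent.P354A (U0 isQ isW)
open Vale.Agent.P354I (P3 r2)
open Vale.Agent.P354R (nn cut)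

/-- The arguments ((p, rho), S, y). -/
abbrev QQ : Type := (P3 × ℝ) × ℝ × ℝ × ℝ

/-- The point q of the time tau after t. -/
noncomputable def qz (k : ℝ) (p : P3) (t : ℝ) (w : R4) : QQ :=
  ((p, Real.exp (-k * t)), Real.exp (-k * t) * Real.exp (-k * w.1), w.2.2)

/-- The unknowns, cut off in the angles. -/
noncomputable def KZ (k : ℝ) (Z : Bool → Ix → QQ → ℝ) (p : P3) (t : ℝ) (σ : Bool) (w : R4)
    (i : Ix) : ℝ :=
  cut w * (Real.exp (-k * (t + w.1) / 2) ^ nn i * Z σ i (qz k p t w)) + U0 k i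

lemma KZ_in (k : ℝ) (Z : Bool → Ix → QQ → ℝ) (p : P3) (t : ℝ) (σ : Bool) {w : R4}
    (h : r2 w.2 ≤ 16) (i : Ix) :
    KZ k Z p t σ w i = Real.exp (-k * (t + w.1) / 2) ^ nn i * Z σ i (qz k p t w) + U0 k i := by
  rw [KZ, P354R.cut_one (q := w) h, one_mul]

noncomputable def cq (q : QQ) : ℝ := cut (0, 0, q.2.2)

lemma far_cq {G : QQ → ℝ} (h : ContDiff ℝ ∞ G) : Far fun q => cq q * G q :=
  ⟨(P354R.cut_smooth.comp (by fun_prop)).mul h, fun q hq => by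
    rw [cq, cut, Real.smoothTransition.zero_of_nonpos (by linarith), zero_mul]⟩

lemma sb_le {m : ℕ} {f : X3 → ℝ} {c c' : ℝ} (h : Sb m f c) (h' : c ≤ c') : Sb m f c' :=
  fun α hα z => (h α hα z).trans h'

/-- the two kinds of bounds -/
lemma two {K : Set (P3 × ℝ)} {E : ℝ} (hE : 1 ≤ E) (m : ℕ) (i : Ix) {G : QQ → ℝ} {v : P3 × ℝ → ℝ}
    (hv : ∀ x, 0 ≤ v x)
    (h0 : ∃ C, 0 ≤ C ∧ ∀ c, ∀ x ∈ K, ∀ s ∈ Icc 0 (E ^ 2),
      Sb m (fun z : X3 => c * G (x, s, z.2)) (|c| * (C * v x)))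
    (h1 : nn i = 0 ∨ isQ i → ∃ C, 0 ≤ C ∧ ∀ c, ∀ x ∈ K, ∀ s ∈ Icc 0 (E ^ 2),
      Sb m (fun z : X3 => c * G (x, s, z.2)) (|c| * (C * (v x * s)))) :
    ∃ C, 0 ≤ C ∧ ∀ x ∈ K, ∀ μ ∈ Icc 0 E,
      Sb m (fun z : X3 => μ ^ nn i * G (x, μ ^ 2, z.2)) (C * v x * μ) ∧
      (isW i → Sb m (fun z : X3 => μ ^ nn i * G (x, μ ^ 2, z.2)) (C * v x * μ ^ 2)) := by
  have hn : nn i ≤ 2 := by cases i <;> simp [nn]
  have E0 : 0 ≤ E := by linarith
  have hs : ∀ μ ∈ Icc 0 E, μ ^ 2 ∈ Icc 0 (E ^ 2) := fun μ h =>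
    ⟨sq_nonneg _, pow_le_pow_left₀ h.1 h.2 2⟩
  by_cases hi : nn i = 0 ∨ isQ i
  · obtain ⟨C, c0, hC⟩ := h1 hi
    refine ⟨C * E ^ 3, by positivity, fun x hx μ hμ => ?_⟩
    have k0 := hμ.1
    have k1 : |μ ^ nn i| ≤ E ^ 2 := by
      rw [abs_of_nonneg (by positivity)]
      exact (pow_le_pow_left₀ hμ.1 hμ.2 _).trans (pow_le_pow_right₀ hE hn)
    have k2 := hv x
    have k3 := sb_le (hC (μ ^ nn i) x hx _ (hs μ hμ)) (mul_le_mul_of_nonneg_right k1 (by positivity))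
    refine ⟨sb_le k3 ?_, fun _ => sb_le k3 ?_⟩
    · calc E ^ 2 * (C * (v x * μ ^ 2)) = C * E ^ 2 * v x * μ * μ := by ring
        _ ≤ C * E ^ 2 * v x * μ * E := by gcongr; exact hμ.2
        _ = _ := by ring
    · calc E ^ 2 * (C * (v x * μ ^ 2)) = C * E ^ 2 * v x * μ ^ 2 * 1 := by ring
        _ ≤ C * E ^ 2 * v x * μ ^ 2 * E := by gcongr
        _ = _ := by ring
  · obtain ⟨C, c0, hC⟩ := h0
    refine ⟨C * E, by positivity, fun x hx μ hμ => ⟨sb_le (hC (μ ^ nn i) x hx _ (hs μ hμ)) ?_,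
      fun hw => absurd ?_ hi⟩⟩
    · have k0 := hμ.1
      have k2 := hv x
      have k1 : |μ ^ nn i| ≤ E * μ := by
        rw [abs_of_nonneg (by positivity)]
        have : nn i = 1 ∨ nn i = 2 := by omega
        rcases this with e | e <;> rw [e] <;> nlinarith [hμ.2]
      calc _ ≤ E * μ * (C * v x) := by gcongr
        _ = _ := by ring
    · cases i <;> simp [nn, isQ] <;> simp [isW] at hw

theorem kz_bd {k : ℝ} (hk : 0 < k) {Z : Bool → Ix → QQ → ℝ} (hZ : ∀ σ i, ContDiff ℝ ∞ (Z σ i))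
    (h0 : ∀ σ i, nn i = 0 ∨ isQ i → ∀ x y, Z σ i (x, 0, y) = 0) (p0 : P3) (ε0 : ℝ) :
    (∀ p t σ, SmU (KZ k Z p t σ) univ ∧
      (∀ τ x x' y, KZ k Z p t σ (τ, x, y) = KZ k Z p t σ (τ, x', y)) ∧
      ∀ z : R4, 25 ≤ r2 z.2 → KZ k Z p t σ z = U0 k) ∧
    (∃ C : ℕ → ℝ, ∀ p ∈ Metric.ball p0 ε0, ∀ t ≥ 0, ∀ σ m τ, -1 ≤ τ → ∀ i,
      Sb m (fun z => KZ k Z p t σ (τ, z) i - U0 k i) (C m * Real.exp (-k * (t + τ) / 2)) ∧
      (isW i → Sb m (fun z => KZ k Z p t σ (τ, z) i) (C m * Real.exp (-k * (t + τ))))) ∧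
    ∀ m, ∀ η > 0, ∃ ε > 0, ∀ p ∈ Metric.ball p0 ε, ∀ t ≥ 0, ∀ σ τ, -1 ≤ τ → ∀ i,
      Sb m (fun z => KZ k Z p t σ (τ, z) i - KZ k Z p0 t σ (τ, z) i) (η * Real.exp (-k * τ / 2)) ∧
      (isW i → Sb m (fun z => KZ k Z p t σ (τ, z) i - KZ k Z p0 t σ (τ, z) i)
        (η * Real.exp (-k * τ))) := by
  have hE : 1 ≤ Real.exp (k / 2) := Real.one_le_exp (by linarith)
  have hK : ∀ r, IsCompact (Metric.closedBall p0 r ×ˢ Icc (0 : ℝ) 1) := fun r =>
    (isCompact_closedBall _ _).prod isCompact_Icc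
  have hρ : ∀ t ≥ 0, Real.exp (-k * t) ∈ Icc (0 : ℝ) 1 := fun t ht =>
    ⟨(Real.exp_pos _).le, Real.exp_le_one_iff.2 (by nlinarith)⟩
  have hμ : ∀ t ≥ 0, ∀ τ, -1 ≤ τ → Real.exp (-k * (t + τ) / 2) ∈ Icc 0 (Real.exp (k / 2)) :=
    fun t ht τ hτ => ⟨(Real.exp_pos _).le, Real.exp_le_exp.2 (by nlinarith)⟩
  have e1 : ∀ u, Real.exp (-k * u / 2) ^ 2 = Real.exp (-k * u) := fun u => by
    rw [sq, ← Real.exp_add]
    ring_nf
  have e2 : ∀ p t σ τ (z : X3) i, KZ k Z p t σ (τ, z) i - U0 k i =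
      Real.exp (-k * (t + τ) / 2) ^ nn i * (fun q => cq q * Z σ i q)
        ((p, Real.exp (-k * t)), Real.exp (-k * (t + τ) / 2) ^ 2, z.2) := fun p t σ τ z i => by
    rw [e1, mul_add (-k) t τ, Real.exp_add, ← mul_add (-k) t τ]
    simp only [KZ, qz, cq, cut]
    ring
  refine ⟨fun p t σ => ⟨fun i => ?_, fun _ _ _ _ => rfl, fun z hz => funext fun i => ?_⟩, ?_,
    fun m η hη => ?_⟩
  · have h1 : ContDiff ℝ ∞ (qz k p t) := by unfold qz; fun_prop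
    exact ((P354R.cut_smooth.mul ((ContDiff.pow (by fun_prop) _).mul ((hZ σ i).comp h1))).add
      contDiff_const).contDiffOn
  · rw [KZ, cut, Real.smoothTransition.zero_of_nonpos (by unfold r2 at hz; linarith), zero_mul,
      zero_add]
  · choose D d0 hD using fun m (j : Bool × Ix) => two hE m j.2 (v := fun _ => 1)
      (K := Metric.closedBall p0 ε0 ×ˢ Icc (0 : ℝ) 1) (G := fun q => cq q * Z j.1 j.2 q)
      (fun _ => zero_le_one) ((far_cq (hZ j.1 j.2)).sb0 (hK ε0) _ m) fun hi => by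
        simpa only [one_mul] using (far_cq (hZ j.1 j.2)).sb1
          (fun x y => by rw [h0 _ _ hi, mul_zero]) (hK ε0) _ m
    refine ⟨fun m => ∑ j, D m j, fun p hp t ht σ m τ hτ i => ?_⟩
    obtain ⟨k1, k2⟩ := hD m (σ, i) (p, Real.exp (-k * t)) ⟨Metric.ball_subset_closedBall hp, hρ t ht⟩
      _ (hμ t ht τ hτ)
    have k3 : D m (σ, i) * 1 ≤ ∑ j, D m j := by
      rw [mul_one]
      exact Finset.single_le_sum (fun j _ => d0 m j) (Finset.mem_univ _)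
    refine ⟨?_, fun hi => ?_⟩
    · simp only [e2]
      exact sb_le k1 (mul_le_mul_of_nonneg_right k3 (Real.exp_pos _).le)
    · have u0 : U0 k i = 0 := by cases i <;> first | rfl | exact absurd hi (by decide)
      have e3 := fun z => e2 p t σ τ z i
      simp only [u0, sub_zero] at e3
      simp only [e3]
      rw [← e1 (t + τ)]
      exact sb_le (k2 hi) (mul_le_mul_of_nonneg_right k3 (sq_nonneg _))
  · let π : P3 × ℝ → P3 × ℝ := fun x => (p0, x.2)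
    have hπ : MapsTo π (Metric.closedBall p0 1 ×ˢ Icc (0 : ℝ) 1)
        (Metric.closedBall p0 1 ×ˢ Icc (0 : ℝ) 1) := fun x hx =>
      ⟨Metric.mem_closedBall_self zero_le_one, hx.2⟩
    have hc : Convex ℝ (Metric.closedBall p0 1 ×ˢ Icc (0 : ℝ) 1) :=
      (convex_closedBall _ _).prod (convex_Icc _ _)
    have hF : ∀ σ i, Far fun q => cq q * (Z σ i q - Z σ i (π q.1, q.2)) := fun σ i =>
      far_cq ((hZ σ i).sub ((hZ σ i).comp (by simp only [π]; fun_prop)))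
    choose D d0 hD using fun j : Bool × Ix => two hE m j.2 (v := fun x => ‖x - π x‖)
      (K := Metric.closedBall p0 1 ×ˢ Icc (0 : ℝ) 1)
      (G := fun q => cq q * (Z j.1 j.2 q - Z j.1 j.2 (π q.1, q.2)))
      (fun _ => norm_nonneg _) ((hF j.1 j.2).sb2 hπ (fun x s y => by simp [π]) (hK 1) hc _ m)
      fun hi => (hF j.1 j.2).sb3 hπ (fun x y => by simp [h0 _ _ hi]) (fun x s y => by simp [π])
        (hK 1) hc _ m
    have s0 : 0 ≤ ∑ j, D j := Finset.sum_nonneg fun j _ => d0 j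
    refine ⟨min 1 (η / (∑ j, D j + 1)), by positivity, fun p hp t ht σ τ hτ i => ?_⟩
    have p1 := lt_min_iff.1 (Metric.mem_ball.1 hp)
    obtain ⟨k1, k2⟩ := hD (σ, i) (p, Real.exp (-k * t)) ⟨p1.1.le, hρ t ht⟩ _ (hμ t ht τ hτ)
    have k3 : D (σ, i) * ‖(p, Real.exp (-k * t)) - π (p, Real.exp (-k * t))‖ ≤ η := by
      have a1 : D (σ, i) ≤ ∑ j, D j := Finset.single_le_sum (fun j _ => d0 j) (Finset.mem_univ _)
      have a2 : ‖(p, Real.exp (-k * t)) - π (p, Real.exp (-k * t))‖ = dist p p0 := by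
        simp [π, dist_eq_norm]
      have a3 := (lt_div_iff₀ (by positivity)).1 p1.2
      rw [a2]
      nlinarith [dist_nonneg (x := p) (y := p0)]
    have k4 : Real.exp (-k * (t + τ) / 2) ≤ Real.exp (-k * τ / 2) :=
      Real.exp_le_exp.2 (by nlinarith)
    have e3 : ∀ z : X3, KZ k Z p t σ (τ, z) i - KZ k Z p0 t σ (τ, z) i =
        Real.exp (-k * (t + τ) / 2) ^ nn i * (fun q => cq q * (Z σ i q - Z σ i (π q.1, q.2)))
          ((p, Real.exp (-k * t)), Real.exp (-k * (t + τ) / 2) ^ 2, z.2) := fun z => by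
      have a1 := e2 p t σ τ z i
      have a2 := e2 p0 t σ τ z i
      simp only [π, cq] at a1 a2 ⊢
      linear_combination a1 - a2
    simp only [e3]
    refine ⟨sb_le k1 (mul_le_mul k3 k4 (Real.exp_pos _).le hη.le), fun hi => sb_le (k2 hi) ?_⟩
    rw [← e1 τ]
    exact mul_le_mul k3 (pow_le_pow_left₀ (Real.exp_pos _).le k4 2) (sq_nonneg _) hη.le

end Vale.Agent.P354RG
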