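import Vale.Agent.P354RG.Tools

/-!
The angular part of the characteristics as functions of r: conservation law, bound for the angle,
and absence of caustics.
-/

open scoped ContDiff
open Set Filter Topology Real

set_option linter.unusedSectionVars false

namespace Vale.Agent.P354RG

open Vale.Agent.P354R Par

/-- The equations for the angle phi and the height z; the arguments are (d, r, zeta). -/
structure Ang (φ z w : R3 → ℝ) (d lo hi r0 δ : ℝ) : Prop where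
  sφ : ContDiff ℝ ∞ φ
  sz : ContDiff ℝ ∞ z
  sw : ContDiff ℝ ∞ w
  pos : 0 < δ
  mem : r0 ∈ Ioo lo hi
  iφ : ∀ ζ, φ (d, r0, ζ) = 0
  iz : ∀ ζ, z (d, r0, ζ) = ζ
  oφ : ∀ r ∈ Ioo lo hi, ∀ ζ, |ζ| < 1 + δ → ds φ (d, r, ζ) = w (d, r, ζ) * z (d, r, ζ)
  oz : ∀ r ∈ Ioo lo hi, ∀ ζ, |ζ| < 1 + δ →
    ds z (d, r, ζ) = w (d, r, ζ) * ((1 - ζ ^ 2) * (sin (φ (d, r, ζ)) * cos (φ (d, r, ζ))))

lemma ev_lt {ζ b : ℝ} (h : |ζ| < b) : ∀ᶠ t in 𝓝 ζ, |t| < b :=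
  continuous_abs.continuousAt.eventually_lt continuousAt_const h

namespace Ang

variable {φ z w : R3 → ℝ} {d lo hi r0 δ : ℝ} (h : Ang φ z w d lo hi r0 δ)
include h

lemma dφ {r ζ : ℝ} (hr : r ∈ Ioo lo hi) (hζ : |ζ| < 1 + δ) :
    HasDerivAt (fun t => φ (d, t, ζ)) (w (d, r, ζ) * z (d, r, ζ)) r :=
  h.oφ r hr ζ hζ ▸ hasDerivAt_ds (dAt h.sφ _)

lemma dzr {r ζ : ℝ} (hr : r ∈ Ioo lo hi) (hζ : |ζ| < 1 + δ) :
    HasDerivAt (fun t => z (d, t, ζ))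
      (w (d, r, ζ) * ((1 - ζ ^ 2) * (sin (φ (d, r, ζ)) * cos (φ (d, r, ζ))))) r :=
  h.oz r hr ζ hζ ▸ hasDerivAt_ds (dAt h.sz _)

lemma cons {r ζ : ℝ} (hr : r ∈ Ioo lo hi) (hζ : |ζ| < 1 + δ) :
    z (d, r, ζ) ^ 2 + (1 - ζ ^ 2) * cos (φ (d, r, ζ)) ^ 2 = 1 := by
  have h1 : ∀ x ∈ Ioo lo hi, HasDerivAt
      (fun t => z (d, t, ζ) ^ 2 + (1 - ζ ^ 2) * cos (φ (d, t, ζ)) ^ 2) 0 x := fun x hx => by
    have := ((h.dzr hx hζ).pow 2).add (((h.dφ hx hζ).cos.pow 2).const_mul (1 - ζ ^ 2))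
    refine this.congr_deriv ?_
    push_cast
    ring
  have h2 := const_of_deriv h1 hr h.mem
  rw [h2, h.iφ, h.iz, cos_zero]
  ring

lemma z_lt {r ζ : ℝ} (hr : r ∈ Ioo lo hi) (hζ : |ζ| < 1 + δ) : |z (d, r, ζ)| < 1 + δ := by
  have h1 := h.cons hr hζ
  have h2 := h.pos
  have h3 : ζ ^ 2 < (1 + δ) ^ 2 := by rw [← sq_abs ζ]; gcongr
  have h4 := cos_sq_le_one (φ (d, r, ζ))
  have h5 := sq_nonneg (cos (φ (d, r, ζ)))
  refine abs_lt_of_sq_lt_sq ?_ (by linarith)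
  generalize cos (φ (d, r, ζ)) ^ 2 = c at *
  rcases le_total (ζ ^ 2) 1 with k | k
  · nlinarith
  · nlinarith

lemma lt1 {ζ : ℝ} (hζ : |ζ| ≤ 1) : |ζ| < 1 + δ := by linarith [h.pos]

lemma z_le {r ζ : ℝ} (hr : r ∈ Ioo lo hi) (hζ : |ζ| ≤ 1) : |z (d, r, ζ)| ≤ 1 := by
  have h1 := h.cons hr (h.lt1 hζ)
  have h3 : ζ ^ 2 ≤ 1 := by rw [← sq_abs ζ]; nlinarith [abs_nonneg ζ]
  refine abs_le_one_iff_mul_self_le_one.2 ?_
  nlinarith [sq_nonneg (cos (φ (d, r, ζ)))]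

variable {m : ℝ} (hm : lo < m)
include hm

lemma sub {r : ℝ} (hr : r ∈ Icc m r0) : r ∈ Ioo lo hi := ⟨hm.trans_le hr.1, hr.2.trans_lt h.mem.2⟩

lemma phi_bd {a ζ : ℝ} (ha : 0 < a) (hζ : |ζ| ≤ 1)
    (hw : ∀ r ∈ Icc m r0, 0 < w (d, r, ζ) ∧ w (d, r, ζ) ≤ a / (r ^ 2 + a ^ 2)) {r : ℝ}
    (hr : r ∈ Icc m r0) : |φ (d, r, ζ)| ≤ arctan (r0 / a) - arctan (r / a) := by
  have key : ∀ e : ℝ, |e| ≤ 1 → arctan (r / a) + e * φ (d, r, ζ) ≤ arctan (r0 / a) := fun e he => by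
    have := mono_of (f := fun t => arctan (t / a) + e * φ (d, t, ζ))
      (f' := fun t => 1 / (1 + (t / a) ^ 2) * (1 / a) + e * (w (d, t, ζ) * z (d, t, ζ)))
      (fun t ht => ((hasDerivAt_id t).div_const a).arctan.add
        ((h.dφ (h.sub hm ht) (h.lt1 hζ)).const_mul e)) (fun t ht => ?_) hr
    · simpa only [h.iφ, mul_zero, add_zero] using this
    · obtain ⟨k1, k2⟩ := hw t ht
      have k3 := h.z_le (h.sub hm ht) hζ
      have k4 : 1 / (1 + (t / a) ^ 2) * (1 / a) = a / (t ^ 2 + a ^ 2) := by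
        field_simp
        ring
      have k5 : |e * z (d, t, ζ)| ≤ 1 := by
        rw [abs_mul]
        exact mul_le_one₀ he (abs_nonneg _) k3
      rw [k4]
      nlinarith [(abs_le.1 k5).1]
  have k1 := key 1 (by simp)
  have k2 := key (-1) (by simp)
  rw [abs_le]
  constructor <;> linarith

omit hm in
lemma cons' {r ζ : ℝ} (hr : r ∈ Ioo lo hi) (hζ : |ζ| < 1 + δ) :
    z (d, r, ζ) * dz z (d, r, ζ) = ζ * cos (φ (d, r, ζ)) ^ 2 +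
      (1 - ζ ^ 2) * (sin (φ (d, r, ζ)) * cos (φ (d, r, ζ))) * dz φ (d, r, ζ) := by
  have h1 := ((hasDerivAt_dz (dAt h.sz (d, r, ζ))).pow 2).add
    ((((hasDerivAt_id ζ).pow 2).const_sub 1).mul ((hasDerivAt_dz (dAt h.sφ (d, r, ζ))).cos.pow 2))
  have h2 := (hasDerivAt_const ζ (1 : ℝ)).congr_of_eventuallyEq
    (f₁ := fun t => z (d, r, t) ^ 2 + (1 - t ^ 2) * cos (φ (d, r, t)) ^ 2)
    ((ev_lt hζ).mono fun t ht => h.cons hr ht)
  have h3 := h1.unique h2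
  simp only [Pi.pow_apply, id] at h3
  push_cast at h3
  linear_combination (1 / 2) * h3

omit hm in
lemma dv {r ζ : ℝ} (hr : r ∈ Ioo lo hi) (hζ : |ζ| < 1 + δ) :
    HasDerivAt (fun t => dz φ (d, t, ζ))
      (dz w (d, r, ζ) * z (d, r, ζ) + w (d, r, ζ) * dz z (d, r, ζ)) r := by
  have h1 := hasDerivAt_ds (dAt (dz_smooth h.sφ) (d, r, ζ))
  rw [ds_dz h.sφ] at h1
  have h2 := ((hasDerivAt_dz (dAt h.sw (d, r, ζ))).mul
    (hasDerivAt_dz (dAt h.sz (d, r, ζ)))).congr_of_eventuallyEq (f₁ := fun t => ds φ (d, r, t))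
    ((ev_lt hζ).mono fun t ht => h.oφ r hr t ht)
  rwa [(hasDerivAt_dz (dAt (ds_smooth h.sφ) (d, r, ζ))).unique h2] at h1

omit hm in
lemma v_init (ζ : ℝ) : dz φ (d, r0, ζ) = 0 := by
  have h1 := hasDerivAt_dz (dAt h.sφ (d, r0, ζ))
  simp only [h.iφ] at h1
  exact h1.unique (hasDerivAt_const _ _)

lemma u_ne {ζ : ℝ} (hζ : |ζ| ≤ 1) (h0 : ζ ≠ 0)
    (hw : ∀ r ∈ Icc m r0, 0 < w (d, r, ζ) ∧ 0 ≤ ζ * dz w (d, r, ζ) ∧ |φ (d, r, ζ)| < π / 2)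
    {r : ℝ} (hr : r ∈ Icc m r0) : 0 < ζ * z (d, r, ζ) ∧
      ζ ^ 2 * cos (φ (d, r, ζ)) ^ 2 ≤ ζ * z (d, r, ζ) * dz z (d, r, ζ) := by
  have hζ' := h.lt1 hζ
  have h3 : ζ ^ 2 ≤ 1 := by rw [← sq_abs ζ]; nlinarith [abs_nonneg ζ]
  have h4 : 0 < ζ ^ 2 := by positivity
  have z0 : ∀ t ∈ Icc m r0, z (d, t, ζ) ≠ 0 := fun t ht e => by
    have h1 := h.cons (h.sub hm ht) hζ'
    rw [e] at h1
    nlinarith [cos_sq_le_one (φ (d, t, ζ)), sq_nonneg (cos (φ (d, t, ζ)))]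
  have z1 : ∀ t ∈ Icc m r0, 0 < ζ * z (d, t, ζ) := fun t ht =>
    pos_of (f := fun t => ζ * z (d, t, ζ))
      (fun t ht => ((h.dzr (h.sub hm ht) hζ').const_mul ζ).continuousAt.continuousWithinAt)
      (fun t ht => mul_ne_zero h0 (z0 t ht)) (by rw [h.iz]; nlinarith) ht
  have p1 : ζ * φ (d, r, ζ) ≤ 0 := by
    have := mono_of (f := fun t => ζ * φ (d, t, ζ))
      (fun t ht => (h.dφ (h.sub hm ht) hζ').const_mul ζ)
      (fun t ht => by nlinarith [mul_pos (hw t ht).1 (z1 t ht)]) hr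
    simpa only [h.iφ, mul_zero] using this
  have v1 : ζ * (dz φ (d, r, ζ) / z (d, r, ζ)) ≤ 0 := by
    have := mono_of (f := fun t => ζ * (dz φ (d, t, ζ) / z (d, t, ζ)))
      (f' := fun t => ζ * dz w (d, t, ζ) +
        w (d, t, ζ) * (ζ ^ 2 * cos (φ (d, t, ζ)) ^ 2 / z (d, t, ζ) ^ 2))
      (fun t ht => (((h.dv (h.sub hm ht) hζ').div (h.dzr (h.sub hm ht) hζ')
        (z0 t ht)).const_mul ζ).congr_deriv ?_) (fun t ht => ?_) hr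
    · simpa only [h.v_init, zero_div, mul_zero] using this
    · have k1 := h.cons' (h.sub hm ht) hζ'
      have k2 := z0 t ht
      field_simp
      linear_combination w (d, t, ζ) * k1
    · have k1 := (hw t ht).1
      have k2 := (hw t ht).2.1
      positivity
  have v2 : dz φ (d, r, ζ) ≤ 0 := by
    have k1 := z1 r hr
    have k2 := z0 r hr
    have k3 : ζ * (dz φ (d, r, ζ) / z (d, r, ζ)) * z (d, r, ζ) ^ 2 =
        dz φ (d, r, ζ) * (ζ * z (d, r, ζ)) := by field_simp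
    by_contra k4
    nlinarith [mul_pos (not_le.1 k4) k1, mul_nonpos_of_nonpos_of_nonneg v1 (sq_nonneg (z (d, r, ζ)))]
  have c1 := abs_lt.1 (hw r hr).2.2
  have c2 : 0 < cos (φ (d, r, ζ)) := cos_pos_of_mem_Ioo c1
  have s1 : ζ * sin (φ (d, r, ζ)) ≤ 0 := by
    rcases lt_or_gt_of_ne h0 with k | k
    · have : 0 ≤ φ (d, r, ζ) := by nlinarith
      exact mul_nonpos_of_nonpos_of_nonneg k.le
        (sin_nonneg_of_nonneg_of_le_pi this (by linarith [pi_pos, c1.2]))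
    · have : φ (d, r, ζ) ≤ 0 := by nlinarith
      exact mul_nonpos_of_nonneg_of_nonpos k.le
        (sin_nonpos_of_nonpos_of_neg_pi_le this (by linarith [pi_pos, c1.1]))
  refine ⟨z1 r hr, ?_⟩
  have k1 := h.cons' (h.sub hm hr) hζ'
  have k2 : 0 ≤ (1 - ζ ^ 2) * cos (φ (d, r, ζ)) * (ζ * sin (φ (d, r, ζ)) * dz φ (d, r, ζ)) :=
    mul_nonneg (mul_nonneg (by linarith) c2.le) (mul_nonneg_of_nonpos_of_nonpos s1 v2)
  have k3 : ζ * z (d, r, ζ) * dz z (d, r, ζ) = ζ ^ 2 * cos (φ (d, r, ζ)) ^ 2 +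
      (1 - ζ ^ 2) * cos (φ (d, r, ζ)) * (ζ * sin (φ (d, r, ζ)) * dz φ (d, r, ζ)) := by
    linear_combination ζ * k1
  linarith

lemma phi_zero {W : ℝ} (hw : ∀ r ∈ Icc m r0, 0 < w (d, r, 0) ∧ w (d, r, 0) ≤ W) {r : ℝ}
    (hr : r ∈ Icc m r0) : φ (d, r, 0) = 0 ∧ z (d, r, 0) = 0 := by
  have hζ' : |(0 : ℝ)| < 1 + δ := h.lt1 (by simp)
  have e : ∀ t ∈ Icc m r0, z (d, t, 0) ^ 2 = sin (φ (d, t, 0)) ^ 2 := fun t ht => by
    have h1 := h.cons (h.sub hm ht) hζ'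
    linear_combination h1 - sin_sq_add_cos_sq (φ (d, t, 0))
  have := mono_of (f := fun t => exp (2 * W * t) * φ (d, t, 0) ^ 2)
    (f' := fun t => 2 * exp (2 * W * t) *
      (W * φ (d, t, 0) ^ 2 + w (d, t, 0) * (φ (d, t, 0) * z (d, t, 0))))
    (fun t ht => ((((hasDerivAt_id t).const_mul (2 * W)).exp).mul
      ((h.dφ (h.sub hm ht) hζ').pow 2)).congr_deriv ?_) (fun t ht => ?_) hr
  · simp only [h.iφ, ne_eq, OfNat.ofNat_ne_zero, not_false_eq_true, zero_pow, mul_zero] at this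
    have k1 : φ (d, r, 0) = 0 := by
      by_contra k
      have := exp_pos (2 * W * r)
      have : 0 < exp (2 * W * r) * φ (d, r, 0) ^ 2 := by positivity
      linarith
    refine ⟨k1, ?_⟩
    have k2 := e r hr
    rw [k1, sin_zero] at k2
    simpa using k2
  · simp only [id, Pi.pow_apply]
    push_cast
    ring
  · obtain ⟨k1, k2⟩ := hw t ht
    have k3 : z (d, t, 0) ^ 2 ≤ φ (d, t, 0) ^ 2 := (e t ht).trans_le sin_sq_le_sq
    have k4 : -φ (d, t, 0) ^ 2 ≤ φ (d, t, 0) * z (d, t, 0) := by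
      nlinarith [sq_nonneg (φ (d, t, 0) + z (d, t, 0))]
    refine mul_nonneg (by positivity) ?_
    nlinarith [sq_nonneg (φ (d, t, 0))]

/-- no caustics -/
theorem u_pos {W : ℝ} (hw : ∀ ζ, |ζ| ≤ 1 → ∀ r ∈ Icc m r0, 0 < w (d, r, ζ) ∧ w (d, r, ζ) ≤ W ∧
      0 ≤ ζ * dz w (d, r, ζ) ∧ |φ (d, r, ζ)| < π / 2) {r ζ : ℝ} (hr : r ∈ Icc m r0)
    (hζ : |ζ| ≤ 1) : 0 < dz z (d, r, ζ) := by
  have key : ∀ t, |t| ≤ 1 → t ≠ 0 → 0 < dz z (d, r, t) ∧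
      cos (φ (d, r, t)) ^ 2 ≤ z (d, r, t) / t * dz z (d, r, t) := fun t ht h0 => by
    obtain ⟨k1, k2⟩ := h.u_ne hm ht h0
      (fun x hx => ⟨(hw t ht x hx).1, (hw t ht x hx).2.2⟩) hr
    have c2 : 0 < cos (φ (d, r, t)) := cos_pos_of_mem_Ioo (abs_lt.1 (hw t ht r hr).2.2.2)
    have k3 : 0 < t ^ 2 * cos (φ (d, r, t)) ^ 2 := by positivity
    refine ⟨(mul_pos_iff_of_pos_left k1).1 (k3.trans_le k2), ?_⟩
    have k4 : 0 < t ^ 2 := by positivity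
    refine le_of_mul_le_mul_left (k2.trans_eq ?_) k4
    field_simp
  by_cases h0 : ζ ≠ 0
  · exact (key ζ hζ h0).1
  obtain rfl := not_not.1 h0
  obtain ⟨e1, e2⟩ := h.phi_zero hm (fun x hx => ⟨(hw 0 hζ x hx).1, (hw 0 hζ x hx).2.1⟩) hr
  have ev : ∀ᶠ t in 𝓝[≠] (0 : ℝ), |t| ≤ 1 ∧ t ≠ 0 :=
    (((ev_lt (ζ := 0) (b := 1) (by simp)).mono fun t ht => ht.le).filter_mono
      nhdsWithin_le_nhds).and self_mem_nhdsWithin
  have t1 : Tendsto (fun t => dz z (d, r, t)) (𝓝[≠] 0) (𝓝 (dz z (d, r, 0))) :=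
    (hasDerivAt_dz (dAt (dz_smooth h.sz) (d, r, 0))).continuousAt.tendsto.mono_left
      nhdsWithin_le_nhds
  have t2 : Tendsto (fun t => cos (φ (d, r, t)) ^ 2) (𝓝[≠] 0) (𝓝 (cos (φ (d, r, 0)) ^ 2)) :=
    ((hasDerivAt_dz (dAt h.sφ (d, r, 0))).cos.pow 2).continuousAt.tendsto.mono_left
      nhdsWithin_le_nhds
  have t3 : Tendsto (fun t => z (d, r, t) / t) (𝓝[≠] 0) (𝓝 (dz z (d, r, 0))) := by
    have := hasDerivAt_iff_tendsto_slope_zero.1 (hasDerivAt_dz (dAt h.sz (d, r, 0)))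
    simpa only [zero_add, e2, sub_zero, smul_eq_mul, inv_mul_eq_div] using this
  have l1 := ge_of_tendsto t1 (ev.mono fun t ht => (key t ht.1 ht.2).1.le)
  have l2 := le_of_tendsto_of_tendsto t2 (t3.mul t1) (ev.mono fun t ht => (key t ht.1 ht.2).2)
  rw [e1, cos_zero] at l2
  refine l1.lt_of_ne fun e => ?_
  rw [← e] at l2
  norm_num at l2

end Ang

end Vale.Agent.P354RG
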