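import Vale.Agent.P354RG.Frame
import Vale.Agent.P354R.BK

/-!
The unknowns of the background as mu ^ nn times smooth functions of q = ((p, rho), S, y),
S = mu ^ 2.
-/

open scoped ContDiff
open Set Filter Topology

set_option linter.unusedSectionVars false

namespace Vale.Agent.P354RG

open Vale.Agent.P354n (R4)
open Vale.Agent.P354C Vale.Agent.P354C.Ix
open Vale.Agent.P354A (U0 isQ isW)
open Vale.Agent.P354I (P3)
open Vale.Agent.P354R (nn Scal lift1_scale lift1_bdry lift1_W lift1_smooth lift2_smooth lift2_bdry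
  lift2_scale lift2_bdryQ line_eq lin1 ht_mem fr0 fr1 fr2 fr3 exp_half)

/-- the image of the vector a -/
noncomputable def Tq (k : ℝ) (q : QQ) (a : R4) : QQ := (0, -(k * q.2.1) * a.1, a.2.2)

noncomputable def mu (k t : ℝ) (w : R4) : ℝ := Real.exp (-k * (t + w.1) / 2)

lemma mu_pos (k t : ℝ) (w : R4) : 0 < mu k t w := Real.exp_pos _

lemma mu_sq (k : ℝ) (p : P3) (t : ℝ) (w : R4) : mu k t w ^ 2 = (qz k p t w).2.1 := by
  rw [mu, exp_half, mul_add, Real.exp_add]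
  rfl

lemma mu_smooth (k t : ℝ) : ContDiff ℝ ∞ (mu k t) := by unfold mu; fun_prop

lemma qz_smooth (k : ℝ) (p : P3) (t : ℝ) : ContDiff ℝ ∞ (qz k p t) := by unfold qz; fun_prop

lemma fderiv_mu {f : QQ → ℝ} (hf : ContDiff ℝ ∞ f) (n : ℕ) (k : ℝ) (p : P3) (t : ℝ) (w a : R4) :
    fderiv ℝ (fun z => mu k t z ^ n * f (qz k p t z)) w a = mu k t w ^ n *
      (fderiv ℝ f (qz k p t w) (Tq k (qz k p t w) a) - n * (k / 2) * a.1 * f (qz k p t w)) := by
  have h0 : HasDerivAt (fun u : ℝ => w.2.2 + u • a.2.2) ((1 : ℝ) • a.2.2) 0 :=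
    ((hasDerivAt_id (0 : ℝ)).smul_const _).const_add _
  have h1 : HasDerivAt (fun u : ℝ => mu k t (w + u • a)) (-(k / 2 * a.1) * mu k t w) 0 := by
    refine ((((lin1 w.1 a.1).const_add t).const_mul (-k)).div_const 2).exp.congr_deriv ?_
    simp only [mu, zero_mul, add_zero]
    ring
  have h2 : HasDerivAt (fun u : ℝ => qz k p t (w + u • a)) (Tq k (qz k p t w) a) 0 := by
    refine ((hasDerivAt_const (0 : ℝ) (p, Real.exp (-k * t))).prodMk
      ((((lin1 w.1 a.1).const_mul (-k)).exp.const_mul (Real.exp (-k * t))).prodMk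
        h0)).congr_deriv ?_
    simp only [Tq, qz, zero_mul, add_zero, one_smul, Prod.mk.injEq, true_and, and_true]
    ring
  have h3 := HasFDerivAt.comp_hasDerivAt_of_eq 0 (dA hf (qz k p t w)).hasFDerivAt h2 (by simp)
  refine line_eq ((((mu_smooth k t).pow n).mul (hf.comp (qz_smooth k p t))).differentiable
    (by simp) w) (((h1.pow n).mul h3).congr_deriv ?_)
  simp only [Pi.pow_apply, zero_smul, add_zero, Function.comp]
  cases n with
  | zero => simp
  | succ n =>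
    simp only [Nat.add_sub_cancel]
    ring

/-- the power of mu in the frame vectors -/
def ej : Fin 4 → ℕ := ![0, 0, 1, 1]

lemma lift2_even (μ : ℝ) (V : Ix → ℝ) (dV : Fin 4 → Ix → ℝ) (i : Ix) (h1 : isW i)
    (h2 : ¬ isQ i) :
    lift2 (fun i => μ ^ nn i * V i) (fun j i => μ ^ (nn i + ej j) * dV j i) i =
      lift2 (fun i => 0 ^ nn i * V i) (fun j i => 0 ^ (nn i + ej j) * dV j i) i + μ ^ 2 *
        (lift2 V dV i -
          lift2 (fun i => 0 ^ nn i * V i) (fun j i => 0 ^ (nn i + ej j) * dV j i) i) := by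
  cases i <;> simp only [isW, isQ, Bool.false_eq_true, not_true_eq_false] at h1 h2 <;>
    simp [lift2, curD, Gam, Wy, asym, Fin.sum_univ_four, nn, ej] <;> ring

section

variable (k : ℝ) (F : ℕ → Y3 → ℝ) (σ : Bool) (p : ℕ → QQ → ℝ)

noncomputable def oh (q : QQ) : ℝ := √(F 0 (arQ σ q))

noncomputable def Vh (q : QQ) : Ix → ℝ
  | .O => oh F σ q
  | .b1 => -(2 * F 4 (arQ σ q) * q.2.2.2)
  | .b2 => 2 * F 4 (arQ σ q) * q.2.2.1
  | .P11 => oh F σ q * p 0 q
  | .P12 => oh F σ q * p 1 q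
  | .P21 => oh F σ q * p 2 q
  | .P22 => oh F σ q * p 3 q
  | _ => 0

noncomputable def fa (q : QQ) : Fin 4 → R4 :=
  ![(1, 1, q.2.1 * Vh F σ p q b1, q.2.1 * Vh F σ p q b2), (1, -1, 0, 0),
    (0, 0, Vh F σ p q P11, Vh F σ p q P12), (0, 0, Vh F σ p q P21, Vh F σ p q P22)]

noncomputable def DD (V : QQ → Ix → ℝ) (q : QQ) (j : Fin 4) (i : Ix) : ℝ :=
  fderiv ℝ (fun z => V z i) q (Tq k q (fa F σ p q j)) - nn i * (k / 2) * (fa F σ p q j).1 * V q i

noncomputable def dh (q : QQ) (j : Fin 4) (i : Ix) : ℝ :=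
  q.2.1 ^ (ej j * (nn i - 1)) * DD k F σ p (Vh F σ p) q j i

noncomputable def Gh (q : QQ) : Ix → ℝ := lift1 (Vh F σ p q) (dh k F σ p q)
noncomputable def HH (q : QQ) : Ix → ℝ := lift2 (Gh k F σ p q) (DD k F σ p (Gh k F σ p) q)
noncomputable def A0 (q : QQ) : Ix → ℝ := lift2 (fun i => 0 ^ nn i * Gh k F σ p q i)
  (fun j i => 0 ^ (nn i + ej j) * DD k F σ p (Gh k F σ p) q j i)
noncomputable def ZZ (i : Ix) (q : QQ) : ℝ :=
  if isW i then (if isQ i then HH k F σ p q i else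
    A0 k F σ p q i + q.2.1 * (HH k F σ p q i - A0 k F σ p q i)) else Gh k F σ p q i - U0 k i

/-- the frame of the background -/
noncomputable def UK (x : P3) (t : ℝ) (w : R4) (i : Ix) : ℝ :=
  mu k t w ^ nn i * Vh F σ p (qz k x t w) i

end

/-- the hypotheses -/
structure Hyp (F : ℕ → Y3 → ℝ) (σ : Bool) (p : ℕ → QQ → ℝ) : Prop where
  smooth : ∀ i, ContDiff ℝ ∞ (F i)
  pos : ∀ d s, ∀ z ∈ Icc (-1 : ℝ) 1, 0 < F 0 (d, s, z)
  fr : Fr F σ p

namespace Hyp

variable {F : ℕ → Y3 → ℝ} {σ : Bool} {p : ℕ → QQ → ℝ} (h : Hyp F σ p) (k : ℝ)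
include h

lemma F0_pos (q : QQ) : 0 < F 0 (arQ σ q) := h.pos _ _ _ (ht_mem σ _)

lemma oh_pos (q : QQ) : 0 < oh F σ q := Real.sqrt_pos.2 (h.F0_pos q)

lemma oh_s : ContDiff ℝ ∞ (oh F σ) :=
  ((h.smooth 0).comp (arQ_smooth σ)).sqrt fun q => (h.F0_pos q).ne'

lemma Vh_s (i : Ix) : ContDiff ℝ ∞ fun q => Vh F σ p q i := by
  have h1 := h.oh_s
  have h2 := h.fr.smooth
  have h3 := h.smooth 4
  have h4 := arQ_smooth σ
  cases i <;> simp only [Vh] <;> fun_prop

lemma det_pos (q : QQ) : 0 < detP (Vh F σ p q) := by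
  have h1 := mul_pos (pow_pos (h.oh_pos q) 2) (h.fr.det q)
  simp only [detP, Vh]
  linarith

lemma fa_s (j : Fin 4) : ContDiff ℝ ∞ fun q => fa F σ p q j := by
  have := h.Vh_s
  fin_cases j <;> simp [fa] <;> fun_prop

lemma DD_s {V : QQ → Ix → ℝ} (hV : ∀ i, ContDiff ℝ ∞ fun q => V q i) (j : Fin 4) (i : Ix) :
    ContDiff ℝ ∞ fun q => DD k F σ p V q j i := by
  have := h.fa_s j
  exact (((hV i).fderiv_right (m := ∞) (by simp)).clm_apply (by unfold Tq; fun_prop)).sub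
    ((contDiff_const.mul this.fst).mul (hV i))

lemma Gh_s (i : Ix) : ContDiff ℝ ∞ fun q => Gh k F σ p q i :=
  lift1_smooth h.Vh_s (fun j i => (contDiff_snd.fst.pow _).mul (h.DD_s k h.Vh_s j i))
    (fun q => (h.oh_pos q).ne') (fun q => (h.det_pos q).ne') i

lemma ZZ_s (i : Ix) : ContDiff ℝ ∞ (ZZ k F σ p i) := by
  have h1 : ContDiff ℝ ∞ fun q => HH k F σ p q i :=
    lift2_smooth (h.Gh_s k) (h.DD_s k (h.Gh_s k)) i
  have h2 : ContDiff ℝ ∞ fun q => A0 k F σ p q i :=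
    lift2_smooth (fun i => contDiff_const.mul (h.Gh_s k i))
      (fun j i => contDiff_const.mul (h.DD_s k (h.Gh_s k) j i)) i
  unfold ZZ
  split_ifs
  · exact h1
  · exact h2.add (contDiff_snd.fst.mul (h1.sub h2))
  · exact (h.Gh_s k i).sub contDiff_const

omit h in
lemma DD_bdry (V : QQ → Ix → ℝ) (x : P3 × ℝ) (y : ℝ × ℝ) (i : Ix) :
    DD k F σ p V (x, 0, y) 0 i = -(nn i * (k / 2)) * V (x, 0, y) i ∧
    DD k F σ p V (x, 0, y) 1 i = -(nn i * (k / 2)) * V (x, 0, y) i := by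
  have a0 : Tq k (x, 0, y) (fa F σ p (x, 0, y) 0) = 0 := by simp [Tq, fa]
  have a1 : Tq k (x, 0, y) (fa F σ p (x, 0, y) 1) = 0 := by simp [Tq, fa]
  unfold DD
  rw [a0, a1]
  simp [fa]

lemma Gh_bdry (x : P3 × ℝ) (y : ℝ × ℝ) (i : Ix) (hi : nn i = 0) :
    Gh k F σ p (x, 0, y) i = U0 k i := by
  refine lift1_bdry ?_ ?_ ?_ ?_ (h.oh_pos _).ne' (h.det_pos _).ne' i hi <;>
    simp [dh, DD_bdry, nn, ej, neg_div]

lemma ZZ_bdry (i : Ix) (hi : nn i = 0 ∨ isQ i) (x : P3 × ℝ) (y : ℝ × ℝ) :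
    ZZ k F σ p i (x, 0, y) = 0 := by
  unfold ZZ
  split_ifs with h1 h2
  · refine lift2_bdryQ (k := k) (h.Gh_bdry k x y) (lift1_W _ _) ?_ ?_ i h2 <;>
      simp [DD_bdry, nn, neg_div]
  · have e1 : (fun i => 0 ^ nn i * Gh k F σ p (x, 0, y) i) = U0 k := by
      funext i
      by_cases hi : nn i = 0
      · rw [hi, pow_zero, one_mul, h.Gh_bdry k x y i hi]
      · rw [zero_pow hi, zero_mul]
        cases i <;> first | rfl | exact absurd rfl hi
    have e2 : (fun j i => 0 ^ (nn i + ej j) * DD k F σ p (Gh k F σ p) (x, 0, y) j i) =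
        fun _ _ => 0 := by
      funext j i
      by_cases hi : nn i = 0
      · fin_cases j <;> simp [ej, DD_bdry, hi]
      · rw [zero_pow (by omega), zero_mul]
    simp only [A0, e1, e2, lift2_bdry, zero_mul, add_zero]
    cases i <;> first | rfl | exact absurd h1 (by decide)
  · rw [h.Gh_bdry k x y i (hi.resolve_right fun h2 => h1 (by cases i <;> simp_all [isQ, isW])),
      sub_self]

variable (x : P3) (t : ℝ)

/-- derivatives along the frame -/
lemma dfr_eq {V : QQ → Ix → ℝ} (hV : ∀ i, ContDiff ℝ ∞ fun q => V q i)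
    (e : ∀ q, ∀ i ∈ [b1, b2, P11, P12, P21, P22], V q i = Vh F σ p q i) (w : R4) :
    dfr (fun w i => mu k t w ^ nn i * V (qz k x t w) i) w =
      fun j i => mu k t w ^ (nn i + ej j) * DD k F σ p V (qz k x t w) j i := by
  funext j i
  simp only [List.mem_cons, List.not_mem_nil, or_false, forall_eq_or_imp, forall_eq] at e
  have e1 : P354C.fr (fun i => mu k t w ^ nn i * V (qz k x t w) i) j =
      mu k t w ^ ej j • fa F σ p (qz k x t w) j := by
    fin_cases j <;> simp [fr0, fr1, fr2, fr3, fa, ej, nn, e, mu_sq k x t w]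
  unfold dfr
  rw [e1, map_smul, fderiv_mu (hV i), smul_eq_mul, DD]
  ring

lemma dfr_UK (w : R4) : dfr (UK k F σ p x t) w =
    fun j i => mu k t w ^ (nn i + ej j) * DD k F σ p (Vh F σ p) (qz k x t w) j i :=
  h.dfr_eq k x t h.Vh_s (fun _ _ _ => rfl) w

lemma L1_UK : L1 (UK k F σ p x t) = fun w i => mu k t w ^ nn i * Gh k F σ p (qz k x t w) i := by
  funext w i
  refine lift1_scale ?_ (mu_pos k t w).ne' (h.oh_pos _).ne' (h.det_pos _).ne' i
  rw [h.dfr_UK]
  refine ⟨fun i _ => rfl, ?_, ?_, ?_, ?_, ?_, ?_, ?_⟩ <;>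
    simp [dh, nn, ej, ← mu_sq k x t w]
  all_goals constructor <;> ring

lemma L2_UK (w : R4) (i : Ix) :
    L2 (UK k F σ p x t) w i = mu k t w ^ nn i * ZZ k F σ p i (qz k x t w) + U0 k i := by
  unfold L2
  rw [h.L1_UK, h.dfr_eq k x t (h.Gh_s k) (fun q => by
    simp only [List.mem_cons, List.not_mem_nil, or_false, forall_eq_or_imp, forall_eq]
    exact ⟨rfl, rfl, rfl, rfl, rfl, rfl⟩)]
  unfold ZZ
  split_ifs with h1 h2
  · have u0 : U0 k i = 0 := by cases i <;> first | rfl | exact absurd h1 (by decide)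
    have n1 : nn i = 1 := by cases i <;> first | rfl | exact absurd h2 (by decide)
    rw [u0, n1, add_zero, pow_one]
    refine lift2_scale (fun _ => rfl) ?_ ?_ i h2 <;> simp [nn, ej]
  · have u0 : U0 k i = 0 := by cases i <;> first | rfl | exact absurd h1 (by decide)
    have n1 : nn i = 0 := by
      cases i <;> first | rfl | exact absurd h1 (by decide) | exact absurd rfl h2
    rw [u0, n1, add_zero, pow_zero, one_mul, lift2_even _ _ _ i h1 h2, mu_sq k x t w]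
    rfl
  · cases i <;> first | exact absurd rfl h1 | simp [lift2, nn, U0]

end Hyp

end Vale.Agent.P354RG
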