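import Vale.Agent.P354RG.Eik

/-!
The global family of characteristics as functions of s = exp (- k tau).
-/

open scoped ContDiff
open Set Filter Topology Real

set_option linter.unusedSectionVars false

namespace Vale.Agent.P354RG

open Vale.Agent.P354R Par

variable {E : Type} [NormedAddCommGroup E] [NormedSpace ℝ E] [FiniteDimensional ℝ E]

/-- The family for one value of the parameter. -/
def sl {V : Type} (S : E × ℝ × ℝ → V) (μ : E) (c : R3) : V := S (μ, c.2)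

lemma C0.mono {P : Par} {d δ δ' : ℝ} {S : R3 → W4} (h : C0 P (d, δ) S) (h0 : 0 < δ')
    (h1 : δ' ≤ δ) : C0 P (d, δ') S := by
  have k : bx (d, δ') ⊆ bx (d, δ) := fun c hc =>
    ⟨hc.1, ⟨by linarith [hc.2.1.1], by linarith [hc.2.1.2]⟩, by linarith [hc.2.2]⟩
  exact ⟨h0, h.smooth, h.init, fun c hc => h.mem c (k hc), fun d s ζ hc => h.ode d s ζ (k hc)⟩

lemma dz_sl {f : E × ℝ × ℝ → ℝ} (hf : ContDiff ℝ ∞ f) (μ : E) (c : R3) :
    dz (sl f μ) c = fderiv ℝ f (μ, c.2) (0, 0, 1) := by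
  obtain ⟨d, s, ζ⟩ := c
  have h0 : ContDiff ℝ ∞ (sl f μ) := hf.comp (contDiff_const.prodMk contDiff_snd)
  have h1 : HasDerivAt (fun t : ℝ => ((μ, s, t) : E × ℝ × ℝ)) (0, 0, 1) ζ :=
    (hasDerivAt_const _ _).prodMk ((hasDerivAt_const _ _).prodMk (hasDerivAt_id _))
  exact (hasDerivAt_dz (dAt h0 _)).unique (HasFDerivAt.comp_hasDerivAt ζ
    (f := fun t : ℝ => ((μ, s, t) : E × ℝ × ℝ)) (hf.differentiable (by simp) _).hasFDerivAt h1)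

lemma ds_sl {f : E × ℝ × ℝ → ℝ} (hf : ContDiff ℝ ∞ f) (μ : E) (c : R3) :
    ds (sl f μ) c = fderiv ℝ f (μ, c.2) (0, 1, 0) := by
  obtain ⟨d, s, ζ⟩ := c
  have h0 : ContDiff ℝ ∞ (sl f μ) := hf.comp (contDiff_const.prodMk contDiff_snd)
  have h1 : HasDerivAt (fun t : ℝ => ((μ, t, ζ) : E × ℝ × ℝ)) (0, 1, 0) s :=
    (hasDerivAt_const _ _).prodMk ((hasDerivAt_id _).prodMk (hasDerivAt_const _ _))
  exact (hasDerivAt_ds (dAt h0 _)).unique (HasFDerivAt.comp_hasDerivAt s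
    (f := fun t : ℝ => ((μ, t, ζ) : E × ℝ × ℝ)) (hf.differentiable (by simp) _).hasFDerivAt h1)

/-- The family of characteristics with parameters. -/
structure Fam (P : E → Par) (d : E → ℝ) (μ0 : E) (δ : ℝ) (S : E × ℝ × ℝ → W4) : Prop where
  pos : 0 < δ
  smooth : ContDiff ℝ ∞ S
  par : ∀ μ s ζ, S (μ, s, -ζ) =
    ((S (μ, s, ζ)).1, -(S (μ, s, ζ)).2.1, -(S (μ, s, ζ)).2.2.1, (S (μ, s, ζ)).2.2.2)
  chr : ∀ μ, dist μ μ0 ≤ δ → 0 < d μ ∧ C0 (P μ) (d μ, δ) (sl S μ) ∧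
    ∀ c ∈ bx (d μ, δ), 0 < dz (zz (sl S μ)) c

lemma dz_ww (P : Par) {r ζ : ℝ} (h : 0 < P.Q2 r ζ) :
    HasDerivAt (fun t => ww P r t) (-(|P.a| * (P.a ^ 2 * ζ * P.Dl r) / P.qq r ζ ^ 3)) ζ := by
  have hq := P.qq_pos h
  have h2 : HasDerivAt (fun t => P.Q2 r t) (2 * P.a ^ 2 * ζ * P.Dl r) ζ := by
    have := (((((hasDerivAt_id ζ).pow 2).const_sub 1).const_mul (P.a ^ 2)).mul_const
      (P.Dl r)).const_sub ((r ^ 2 + P.a ^ 2) ^ 2)
    refine this.congr_deriv ?_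
    simp only [id]
    push_cast
    ring
  refine ((hasDerivAt_const ζ |P.a|).div (h2.sqrt h.ne') hq.ne').congr_deriv ?_
  change (_ - _ * (_ / (2 * P.qq r ζ))) / P.qq r ζ ^ 2 = _
  field_simp
  ring

namespace RF

variable {P : E → Par} {d : E → ℝ} {μ0 : E} {lo hi δ : ℝ} {W : E × ℝ × ℝ → ℝ}
  {L : (E × ℝ) × ℝ → ℝ} {y : (E × ℝ) × ℝ → W5} (h : RF P d μ0 lo hi δ W L y)
include h

lemma sig_eq {μ : E} (hμ : dist μ μ0 ≤ δ) {r ζ : ℝ} (hr : r ∈ Ioo lo hi) (hζ : |ζ| < 1 + δ) :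
    (y ((μ, ζ), r)).2.2.2.2 = (r - (P μ).m) * exp (y ((μ, ζ), r)).2.2.1 / d μ := by
  have h1 : ∀ x ∈ Ioo lo hi, HasDerivAt (fun t => (y ((μ, ζ), t)).2.2.2.2 -
      (t - (P μ).m) * exp (y ((μ, ζ), t)).2.2.1 / d μ) 0 x := fun x hx => by
    obtain ⟨k1, -, k2, k3, -⟩ := h.ode μ hμ x hx ζ hζ
    refine ((h.sig (μ, ζ) x).sub ((((hasDerivAt_id x).sub_const _).mul k3.exp).div_const
      _)).congr_deriv ?_
    have k4 := GG_id k1.2.2.2.1 k1.2.2.2.2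
    have k5 : ll (P μ) x ζ (y ((μ, ζ), x)).2.1 *
        (1 + (x - (P μ).m) * (P μ).GG x ζ (y ((μ, ζ), x)).2.1) = 1 := by
      have a1 := (P μ).k_pos.ne'
      have a2 : (P μ).Q2 x (y ((μ, ζ), x)).2.1 ≠ 0 := k1.2.2.2.2.ne'
      have a3 : (P μ).R - x ≠ 0 := (sub_pos.2 k1.2.2.1).ne'
      have a4 : (P μ).qq x ζ ≠ 0 := ((P μ).qq_pos k1.2.2.2.1).ne'
      simp only at k4
      rw [k4, ll]
      field_simp
    rw [k2]
    simp only [id]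
    linear_combination exp (y ((μ, ζ), x)).2.2.1 / d μ * k5
  have h2 := const_of_deriv h1 hr (h.mem μ hμ).2
  have h3 : d μ ≠ 0 := (h.ode μ hμ r hr ζ hζ).1.1.ne'
  rw [h.init] at h2
  simp only [exp_zero, mul_one, add_sub_cancel_left, div_self h3, sub_self] at h2
  linarith

lemma L_pos (x : (E × ℝ) × ℝ) : 0 < L x := by
  obtain ⟨c, h1, h2⟩ := h.Lb
  exact h1.trans_le (h2 x)

lemma exists_r (hP : SmP P) (hd : ContDiff ℝ ∞ d) : ∃ r : (E × ℝ) × ℝ → ℝ, ContDiff ℝ ∞ r ∧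
    (∀ μ ζ, r ((μ, ζ), 1) = (P μ).m + d μ) ∧
    (∀ e s, HasDerivAt (fun s => r (e, s)) (L (e, r (e, s)))⁻¹ s) ∧
    (∀ μ ζ s, r ((μ, -ζ), s) = r ((μ, ζ), s)) ∧ ∀ e s, (y (e, r (e, s))).2.2.2.2 = s := by
  obtain ⟨c, h1, h2⟩ := h.Lb
  have hL := h.sL
  obtain ⟨r, rs, ri, rd, ru⟩ := exists_sol (f := fun x : (E × ℝ) × ℝ × ℝ => (L (x.1, x.2.2))⁻¹)
    (ContDiff.inv (by fun_prop) fun x => (h.L_pos _).ne') (C := c⁻¹)
    (fun x => by
      rw [Real.norm_of_nonneg (inv_pos.2 (h.L_pos _)).le]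
      exact inv_anti₀ h1 (h2 _))
    (t0 := fun _ => 1) (w0 := fun e => (P e.1).m + d e.1) contDiff_const
    ((hP.m.add hd).comp contDiff_fst)
  refine ⟨r, rs, fun μ ζ => ri (μ, ζ), rd, fun μ ζ s => ?_, fun e s => ?_⟩
  · refine (ru (μ, -ζ) (fun s => r ((μ, ζ), s)) (ri (μ, ζ)) (fun t => ?_) s).symm
    simpa only [(h.par μ ζ _).2] using rd (μ, ζ) t
  · have h3 := const_of (f := fun s => (y (e, r (e, s))).2.2.2.2 - s) (fun t => by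
      have k := ((h.sig e (r (e, t))).comp t (rd e t)).sub (hasDerivAt_id t)
      rwa [mul_inv_cancel₀ (h.L_pos _).ne', sub_self] at k) s 1
    obtain ⟨μ, ζ⟩ := e
    simp only [ri (μ, ζ), h.init, sub_self] at h3
    linarith

lemma W_bd {ζ : ℝ} (hζ : |ζ| ≤ 1) {r : ℝ} (hr : r ∈ Icc (P μ0).m ((P μ0).m + d μ0)) :
    0 < W (μ0, r, ζ) ∧ W (μ0, r, ζ) ≤ |(P μ0).a| / (r ^ 2 + |(P μ0).a| ^ 2) ∧
      0 ≤ ζ * dz (fun c => W (μ0, c.2)) (0, r, ζ) := by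
  have h0 : dist μ0 μ0 ≤ δ := by simpa using h.pos.le
  have hr' : r ∈ Ioo lo hi := (h.ang μ0 h0).sub (h.mem μ0 h0).1.1 hr
  have hζ' : |ζ| < 1 + δ := by linarith [h.pos]
  obtain ⟨k1, k2, -⟩ := h.ode μ0 h0 r hr' ζ hζ'
  have a0 := (P μ0).a2_pos
  have a1 : 0 < |(P μ0).a| := abs_pos.2 fun e => by rw [e] at a0; simp at a0
  have q0 := (P μ0).qq_pos k1.2.2.2.1
  have q1 : r ^ 2 + (P μ0).a ^ 2 ≤ (P μ0).qq r ζ :=
    Real.le_sqrt_of_sq_le (Q2_ge _ hr.1 k1.2.2.1.le hζ)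
  refine ⟨k2 ▸ div_pos a1 q0, ?_, ?_⟩
  · rw [k2, sq_abs]
    exact div_le_div_of_nonneg_left a1.le (by positivity) q1
  · have k3 := (dz_ww (P μ0) k1.2.2.2.1).congr_of_eventuallyEq (f₁ := fun t => W (μ0, r, t))
      ((ev_lt hζ').mono fun t ht => (h.ode μ0 h0 r hr' t ht).2.1)
    rw [(hasDerivAt_dz (dAt (h.ang μ0 h0).sw (0, r, ζ))).unique k3]
    have k4 : 0 ≤ -(P μ0).Dl r := by
      have := mul_nonneg (sub_nonneg.2 k1.2.2.1.le) (sub_nonneg.2 hr.1)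
      simp only [Dl] at this ⊢
      linarith
    have k5 : ζ * -(|(P μ0).a| * ((P μ0).a ^ 2 * ζ * (P μ0).Dl r) / (P μ0).qq r ζ ^ 3) =
        |(P μ0).a| * (P μ0).a ^ 2 * ζ ^ 2 * -(P μ0).Dl r / (P μ0).qq r ζ ^ 3 := by ring
    simp only at q0 ⊢
    rw [k5]
    positivity

lemma phi_le {ζ : ℝ} (hζ : |ζ| ≤ 1) {r : ℝ} (hr : r ∈ Icc (P μ0).m ((P μ0).m + d μ0)) :
    |(y ((μ0, ζ), r)).1| ≤ arctan (((P μ0).m + d μ0) / |(P μ0).a|) := by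
  have h0 : dist μ0 μ0 ≤ δ := by simpa using h.pos.le
  have a0 := (P μ0).a2_pos
  have a1 : 0 < |(P μ0).a| := abs_pos.2 fun e => by rw [e] at a0; simp at a0
  have k1 := (h.ang μ0 h0).phi_bd (h.mem μ0 h0).1.1 a1 hζ
    (fun r hr => ⟨(h.W_bd hζ hr).1, (h.W_bd hζ hr).2.1⟩) hr
  have k2 : 0 ≤ arctan (r / |(P μ0).a|) :=
    arctan_nonneg.2 (div_nonneg ((P μ0).hm.le.trans hr.1) a1.le)
  simp only at k1
  linarith

lemma u_pos {ζ : ℝ} (hζ : |ζ| ≤ 1) {r : ℝ} (hr : r ∈ Icc (P μ0).m ((P μ0).m + d μ0)) :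
    0 < dz (fun c => (y ((μ0, c.2.2), c.2.1)).2.1) (0, r, ζ) := by
  have h0 : dist μ0 μ0 ≤ δ := by simpa using h.pos.le
  have a0 := (P μ0).a2_pos
  refine (h.ang μ0 h0).u_pos (h.mem μ0 h0).1.1 (W := |(P μ0).a| / |(P μ0).a| ^ 2)
    (fun ζ hζ r hr => ?_) hr hζ
  obtain ⟨k1, k2, k3⟩ := h.W_bd hζ hr
  refine ⟨k1, k2.trans (div_le_div_of_nonneg_left (abs_nonneg _) (by rwa [sq_abs])
    (by nlinarith [sq_nonneg r])), k3, (h.phi_le hζ hr).trans_lt (arctan_lt_pi_div_two _)⟩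

end RF

theorem exists_fam {P : E → Par} {d : E → ℝ} (hP : SmP P) (hd : ContDiff ℝ ∞ d) (μ0 : E)
    (h0 : 0 < d μ0) (h1 : (P μ0).m + d μ0 < (P μ0).R) : ∃ δ S, Fam P d μ0 δ S := by
  obtain ⟨lo, hi, δ, W, L, y, h⟩ := exists_RF hP hd μ0 h0 h1
  obtain ⟨r, rs, ri, rd, ro, rσ⟩ := h.exists_r hP hd
  have ys := h.sy
  have d0 : dist μ0 μ0 ≤ δ := by simpa using h.pos.le
  set φ0 := arctan (((P μ0).m + d μ0) / |(P μ0).a|) with hφ0
  have l0 : φ0 < π / 2 := arctan_lt_pi_div_two _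
  have l1 : -(π / 2) < φ0 := neg_pi_div_two_lt_arctan _
  obtain ⟨cφ, cs, ci, cb, co⟩ := exists_clampO (r := (φ0 + π / 2) / 2) (r' := π / 2)
    (by linarith) (by linarith)
  have cc0 : ∀ x, cos (cφ x) ≠ 0 := fun x => (cos_pos_of_mem_Ioo (abs_lt.1 (cb x))).ne'
  let Y : E × ℝ × ℝ → W5 := fun x => y ((x.1, x.2.2), r ((x.1, x.2.2), x.2.1))
  have Ys : ContDiff ℝ ∞ Y := by
    simp only [Y]
    fun_prop
  let S : E × ℝ × ℝ → W4 := fun x =>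
    (exp (-(Y x).2.2.1), (Y x).2.1, |(P x.1).a| * tan (cφ (Y x).1), (Y x).2.2.2.1)
  have Ss : ContDiff ℝ ∞ S := by
    have k1 : ContDiff ℝ ∞ fun x => tan (cφ x) :=
      contDiff_iff_contDiffAt.2 fun x => (contDiffAt_tan.2 (cc0 x)).comp x cs.contDiffAt
    have k2 := hP.abs
    exact Ys.snd.snd.fst.neg.exp.prodMk (Ys.snd.fst.prodMk
      (((k2.comp contDiff_fst).mul (k1.comp Ys.fst)).prodMk Ys.snd.snd.snd.fst))
  have r0 : ∀ s ∈ Icc (0 : ℝ) 1, ∀ ζ, |ζ| ≤ 1 →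
      r ((μ0, ζ), s) ∈ Icc (P μ0).m ((P μ0).m + d μ0) := fun s hs ζ hζ => by
    have k1 : StrictMono fun t => (y ((μ0, ζ), t)).2.2.2.2 :=
      strictMono_of_hasDerivAt_pos (h.sig (μ0, ζ)) fun t => h.L_pos _
    have k2 := h.sig_eq d0 (h.mem μ0 d0).1 (ζ := ζ) (by linarith [h.pos])
    simp only [sub_self, zero_mul, zero_div] at k2
    constructor
    · rw [← k1.le_iff_le, k2, rσ]
      exact hs.1
    · rw [← k1.le_iff_le, h.init, rσ]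
      exact hs.2
  obtain ⟨δ2, p2, t2⟩ := tube2 (U := {x : E × ℝ × ℝ | r ((x.1, x.2.2), x.2.1) ∈ Ioo lo hi ∧
      |(Y x).1| < (φ0 + π / 2) / 2}) ((isOpen_Ioo.preimage (by fun_prop)).inter
      (isOpen_lt Ys.continuous.fst.abs continuous_const)) μ0 zero_le_one fun s hs ζ hζ =>
    ⟨(h.ang μ0 d0).sub (h.mem μ0 d0).1.1 (r0 s hs ζ (abs_le.2 hζ)),
      (h.phi_le (abs_le.2 hζ) (r0 s hs ζ (abs_le.2 hζ))).trans_lt (by linarith)⟩
  obtain ⟨δ3, p3, l2, l3⟩ : ∃ δ3 > 0, δ3 ≤ δ ∧ δ3 ≤ δ2 :=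
    ⟨min δ δ2, lt_min h.pos p2, min_le_left _ _, min_le_right _ _⟩
  have key : ∀ μ, dist μ μ0 ≤ δ3 → ∀ c ∈ bx (d μ, δ3), |c.2.2| < 1 + δ ∧
      r ((μ, c.2.2), c.2.1) ∈ Ioo lo hi ∧ |(Y (μ, c.2)).1| < (φ0 + π / 2) / 2 ∧
      (P μ).rad (sl S μ) c = r ((μ, c.2.2), c.2.1) := fun μ hμ c hc => by
    have k0 := abs_lt.1 hc.2.2
    obtain ⟨k1, k2⟩ := t2 μ c.2.1 c.2.2 (hμ.trans l3)
      ⟨by linarith [hc.2.1.1], by linarith [hc.2.1.2]⟩ ⟨by linarith [k0.1], by linarith [k0.2]⟩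
    have k3 : |c.2.2| < 1 + δ := by linarith [hc.2.2]
    refine ⟨k3, k1, k2, ?_⟩
    have k4 := h.sig_eq (hμ.trans l2) k1 k3
    have k5 : d μ ≠ 0 := (h.ode μ (hμ.trans l2) _ k1 _ k3).1.1.ne'
    rw [rσ] at k4
    have k6 : c.1 = d μ := hc.1
    simp only [rad_eq, eta, sl, S, Y, k6, exp_neg] at k4 ⊢
    nth_rw 1 [k4]
    field_simp
    ring
  have c0 : ∀ μ, dist μ μ0 ≤ δ3 → C0 (P μ) (d μ, δ3) (sl S μ) := fun μ hμ => by
    refine ⟨p3, Ss.comp (contDiff_const.prodMk contDiff_snd), fun _ ζ => ?_, fun c hc => ?_,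
      fun d' s ζ hc => ?_⟩
    · simp only [sl, S, Y, ri, h.init, neg_zero, exp_zero, ci 0 (by simp; linarith), tan_zero,
        mul_zero]
    · obtain ⟨k1, k2, -, k3⟩ := key μ hμ c hc
      have k4 := (h.ode μ (hμ.trans l2) _ k2 _ k1).1
      change (P μ).rr (c, sl S μ c) = _ at k3
      simp only [U, mem_ofPred_eq, k3]
      exact ⟨⟨k4.2.2.2.1, k4.2.2.2.2⟩, k4.2.1, k4.2.2.1, exp_pos _⟩
    · obtain ⟨k1, k2, k3, k4⟩ := key μ hμ _ hc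
      obtain ⟨k5, k6, k7, k8, k9⟩ := h.ode μ (hμ.trans l2) _ k2 _ k1
      have a0 := h.ang μ (hμ.trans l2)
      have a1 := (a0.dφ k2 k1).comp s (rd (μ, ζ) s)
      have a2 := (a0.dzr k2 k1).comp s (rd (μ, ζ) s)
      have a3 := (k8.comp s (rd (μ, ζ) s)).neg.exp
      have a4 := k9.comp s (rd (μ, ζ) s)
      have a5 := a0.cons k2 k1
      have e0 : cφ (Y (μ, s, ζ)).1 = (Y (μ, s, ζ)).1 := ci _ k3.le
      have e1 : cos (Y (μ, s, ζ)).1 ≠ 0 := e0 ▸ cc0 _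
      have a8 : HasDerivAt (fun t => (Y (μ, t, ζ)).1) _ s := a1
      have a7 := HasDerivAt.comp (h := fun t => (Y (μ, t, ζ)).1) s (hasDerivAt_tan e1) a8
      have a6 := (a7.congr_of_eventuallyEq
        (f₁ := fun t => tan (cφ (Y (μ, t, ζ)).1)) ((a1.continuousAt.abs.eventually_lt
          continuousAt_const k3).mono fun t ht => congrArg tan (ci _ ht.le))).const_mul |(P μ).a|
      refine (a3.prodMk (a2.prodMk (a6.prodMk a4))).congr_deriv ?_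
      change (P μ).rr (_, sl S μ _) = _ at k4
      have e2 : d' = d μ := hc.1
      have b1 := (P μ).k_pos.ne'
      have b2 := k5.2.2.2.2.ne'
      have b3 := (sub_pos.2 k5.2.2.1).ne'
      have b4 := ((P μ).qq_pos k5.2.2.2.1).ne'
      have b5 := k5.1.ne'
      have b6 := (ll_pos k5).ne'
      have b7 := sq_abs (P μ).a
      simp only [fld, cc, k4]
      simp only [sl, S, e0, e2, Function.comp, Pi.neg_apply, exp_neg] at *
      simp only [Y, k6, k7, ww, tan_eq_sin_div_cos] at *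
      refine Prod.ext ?_ (Prod.ext ?_ (Prod.ext ?_ ?_))
      · field_simp
      · rw [← eq_sub_iff_add_eq'.2 a5, ll]
        field_simp
      · rw [← b7, ll]
        field_simp
        rw [sin_sq_add_cos_sq, mul_one]
      · field_simp
  have zs : ContDiff ℝ ∞ fun x => (S x).2.1 := Ss.snd.fst
  obtain ⟨δ4, p4, t4⟩ := tube2
    (U := {x : E × ℝ × ℝ | 0 < fderiv ℝ (fun x => (S x).2.1) x (0, 0, 1)})
    (isOpen_lt continuous_const ((zs.continuous_fderiv (by simp)).clm_apply continuous_const)) μ0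
    zero_le_one fun s hs ζ hζ => by
      have d3 : dist μ0 μ0 ≤ δ3 := by simpa using p3.le
      have hc : ((d μ0, s, ζ) : R3) ∈ bx (d μ0, δ3) :=
        ⟨rfl, ⟨by linarith [hs.1], by linarith [hs.2]⟩, by linarith [abs_le.2 hζ]⟩
      have g := c0 μ0 d3
      obtain ⟨k1, k2, k3, k4⟩ := key μ0 d3 _ hc
      have a0 := h.ang μ0 d0
      have a1 : HasDerivAt (fun t => r ((μ0, t), s)) (dz ((P μ0).rad (sl S μ0)) (d μ0, s, ζ)) ζ :=
        (hasDerivAt_dz (dAt g.rad_s _)).congr_of_eventuallyEq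
          ((bx_ev hc).mono fun t ht => (key μ0 d3 _ ht).2.2.2.symm)
      have a2 := HasFDerivAt.comp_hasDerivAt ζ (f := fun t : ℝ => ((0, r ((μ0, t), s), t) : R3))
        (dAt a0.sz _).hasFDerivAt ((hasDerivAt_const _ _).prodMk (a1.prodMk (hasDerivAt_id ζ)))
      have a3 := (hasDerivAt_dz (dAt g.zz_s (d μ0, s, ζ))).unique a2
      have e : ((0, dz ((P μ0).rad (sl S μ0)) (d μ0, s, ζ), 1) : R3) =
          dz ((P μ0).rad (sl S μ0)) (d μ0, s, ζ) • ((0, 1, 0) : R3) + (0, 0, 1) := by simp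
      rw [e, map_add, map_smul, smul_eq_mul] at a3
      change _ = _ * ds _ _ + dz _ _ at a3
      have a4 := h.u_pos (abs_le.2 hζ) (r0 s hs ζ (abs_le.2 hζ))
      have a5 := g.qA hc
      have a6 := g.A_pos hc
      have a7 := (P μ0).qq_pos (g.q_pos hc)
      have a8 := a0.cons k2 k1
      have e0 : cφ (Y (μ0, s, ζ)).1 = (Y (μ0, s, ζ)).1 := ci _ k3.le
      have e1 : cos (Y (μ0, s, ζ)).1 ≠ 0 := e0 ▸ cc0 _
      have a9 : ds (fun c : R3 => (y ((μ0, c.2.2), c.2.1)).2.1) (0, r ((μ0, ζ), s), ζ) =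
          (1 - zz (sl S μ0) (d μ0, s, ζ) ^ 2) * pp (sl S μ0) (d μ0, s, ζ) /
            (P μ0).qq ((P μ0).rad (sl S μ0) (d μ0, s, ζ)) ζ := by
        rw [a0.oz _ k2 _ k1, k4]
        simp only [(h.ode μ0 d0 _ k2 _ k1).2.1, zz, pp, sl, S, e0, ww, tan_eq_sin_div_cos]
        simp only [Y] at e1 ⊢
        rw [← eq_sub_iff_add_eq'.2 a8]
        field_simp
      rw [a9, g.dz_rad' hc h0 hs.1] at a3
      rw [mem_ofPred_eq, ← dz_sl zs μ0 (d μ0, s, ζ)]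
      change 0 < dz (zz (sl S μ0)) (d μ0, s, ζ)
      simp only at a3 a5 a6 a7
      generalize dz (zz (sl S μ0)) (d μ0, s, ζ) = Z at *
      generalize (P μ0).qq ((P μ0).rad (sl S μ0) (d μ0, s, ζ)) ζ = q at *
      have b1 : Z * ((P μ0).Q2 ((P μ0).rad (sl S μ0) (d μ0, s, ζ)) (zz (sl S μ0) (d μ0, s, ζ)) /
          q ^ 2) = dz (fun c : R3 => (y ((μ0, c.2.2), c.2.1)).2.1) (0, r ((μ0, ζ), s), ζ) := by
        rw [← a5, ← sub_eq_iff_eq_add'.2 a3]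
        field_simp
        ring
      exact (mul_pos_iff_of_pos_right (by positivity)).1 (b1 ▸ a4)
  obtain ⟨δ5, p5, l4, l5⟩ : ∃ δ5 > 0, δ5 ≤ δ3 ∧ δ5 ≤ δ4 :=
    ⟨min δ3 δ4, lt_min p3 p4, min_le_left _ _, min_le_right _ _⟩
  refine ⟨δ5, S, p5, Ss, fun μ s ζ => ?_, fun μ hμ => ⟨?_, (c0 μ (hμ.trans l4)).mono p5 l4,
    fun c hc => ?_⟩⟩
  · simp only [S, Y, ro, (h.par μ ζ _).1, rfl5, co, tan_neg, mul_neg]
  · exact (h.ode μ (hμ.trans (l4.trans l2)) _ (h.mem μ (hμ.trans (l4.trans l2))).1 0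
      (by simp; linarith [h.pos])).1.1
  · have k0 := abs_lt.1 hc.2.2
    have := t4 μ c.2.1 c.2.2 (hμ.trans l5) ⟨by linarith [hc.2.1.1], by linarith [hc.2.1.2]⟩
      ⟨by linarith [k0.1], by linarith [k0.2]⟩
    rwa [mem_ofPred_eq, ← dz_sl zs μ c] at this

end Vale.Agent.P354RG
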