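import Vale.Agent.P354R.Coef

/-!
Tools for the global characteristics: equations with parameters, clamps, tubes.
-/

open scoped ContDiff
open Set Filter Topology

namespace Vale.Agent.P354RG

open Vale.Agent.P354R

section Sol

variable {E W : Type} [NormedAddCommGroup E] [NormedSpace ℝ E] [FiniteDimensional ℝ E]
  [NormedAddCommGroup W] [NormedSpace ℝ W] [FiniteDimensional ℝ W]

lemma const_of {V : Type} [NormedAddCommGroup V] [NormedSpace ℝ V] {f : ℝ → V}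
    (h : ∀ t, HasDerivAt f 0 t) (s t : ℝ) : f s = f t :=
  is_const_of_deriv_eq_zero (fun t => (h t).differentiableAt) (fun t => (h t).deriv) s t

/-- Global solutions of an equation with parameters and a bounded right hand side. -/
theorem exists_sol {f : E × ℝ × W → W} (hf : ContDiff ℝ ∞ f) {C : ℝ} (hb : ∀ x, ‖f x‖ ≤ C)
    {t0 : E → ℝ} {w0 : E → W} (ht : ContDiff ℝ ∞ t0) (hw : ContDiff ℝ ∞ w0) :
    ∃ y : E × ℝ → W, ContDiff ℝ ∞ y ∧ (∀ e, y (e, t0 e) = w0 e) ∧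
      (∀ e t, HasDerivAt (fun t => y (e, t)) (f (e, t, y (e, t))) t) ∧
      ∀ e (c : ℝ → W), c (t0 e) = w0 e → (∀ t, HasDerivAt c (f (e, t, c t)) t) →
        ∀ t, c t = y (e, t) := by
  let Y : E × ℝ × W → E × ℝ × W := fun x => (0, 1, f x)
  have Ys : ContDiff ℝ ∞ Y := contDiff_const.prodMk (contDiff_const.prodMk hf)
  have Yb : ∀ x, ‖Y x‖ ≤ max 1 C := fun x => by
    simp only [Y, Prod.norm_def, norm_zero, norm_one]
    exact max_le (le_max_of_le_left zero_le_one) (max_le_max le_rfl (hb x))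
  obtain ⟨Φ, Φs, Φ0, Φd, Φu⟩ := P265.H185.exists_global_flow Y Ys
    (fun z => P265.H185.exists_curve_of_bounded (Ys.of_le (by simp)) Yb z)
  have Φ1 : ∀ t x, (Φ t x).1 = x.1 := fun t x => by
    have := const_of (f := fun t => (Φ t x).1) (fun t => (Φd t x).fst) t 0
    simpa only [Φ0] using this
  have Φ2 : ∀ t x, (Φ t x).2.1 = x.2.1 + t := fun t x => by
    have := const_of (f := fun t => (Φ t x).2.1 - t) (fun t => by
      have h1 : HasDerivAt (fun t => (Φ t x).2.1) 1 t := (Φd t x).snd.fst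
      simpa using h1.fun_sub (hasDerivAt_id t)) t 0
    simp only [Φ0, sub_zero] at this
    linarith
  refine ⟨fun c => (Φ (c.2 - t0 c.1) (c.1, t0 c.1, w0 c.1)).2.2, ?_, fun e => by simp [Φ0],
    fun e t => ?_, fun e c c0 hc t => ?_⟩
  · have h1 : ContDiff ℝ ∞ (fun c : E × ℝ => ((c.2 - t0 c.1, (c.1, t0 c.1, w0 c.1)) :
      ℝ × (E × ℝ × W))) := by fun_prop
    exact (Φs.comp h1).snd.snd
  · have h1 := (Φd (t - t0 e) (e, t0 e, w0 e)).scomp t ((hasDerivAt_id t).sub_const (t0 e))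
    have h2 : HasDerivAt (fun s => (Φ (s - t0 e) (e, t0 e, w0 e)).2.2)
        ((1 : ℝ) • Y (Φ (t - t0 e) (e, t0 e, w0 e))).2.2 t := h1.snd.snd
    have h3 : Φ (t - t0 e) (e, t0 e, w0 e) = (e, t, (Φ (t - t0 e) (e, t0 e, w0 e)).2.2) :=
      Prod.ext (Φ1 _ _) (Prod.ext (by rw [Φ2]; simp) rfl)
    rw [one_smul, h3] at h2
    exact h2
  · have h1 := Φu (fun u => (e, t0 e + u, c (t0 e + u))) (fun u => by
      have h2 := (hc (t0 e + u)).scomp u ((hasDerivAt_id u).const_add (t0 e))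
      rw [one_smul] at h2
      exact (hasDerivAt_const u e).prodMk (((hasDerivAt_id u).const_add (t0 e)).prodMk h2))
      (t - t0 e)
    simp only [add_zero, c0, add_sub_cancel] at h1
    simp only [← h1]

/-- A clamp around a point. -/
lemma exists_clampE (μ0 : E) {r r' : ℝ} (hr : 0 < r) (hr' : r < r') : ∃ cl : E → E,
    ContDiff ℝ ∞ cl ∧ (∀ x, dist x μ0 ≤ r → cl x = x) ∧ ∀ x, dist (cl x) μ0 < r' := by
  let χ : ContDiffBump μ0 := ⟨r, r', hr, hr'⟩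
  refine ⟨fun x => μ0 + χ x • (x - μ0), contDiff_const.add (χ.contDiff.smul (by fun_prop)),
    fun x hx => ?_, fun x => ?_⟩
  · have : χ x = 1 := χ.one_of_mem_closedBall hx
    simp [this]
  · rw [dist_self_add_left, norm_smul, ← dist_eq_norm, Real.norm_of_nonneg χ.nonneg]
    by_cases hx : dist x μ0 < r'
    · have h1 : χ x ≤ 1 := χ.le_one
      nlinarith [dist_nonneg (x := x) (y := μ0)]
    · have : χ x = 0 := χ.zero_of_le_dist (not_lt.1 hx)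
      rw [this]
      linarith

end Sol

lemma hd1 {X Y : Type} [NormedAddCommGroup X] [NormedSpace ℝ X] [NormedAddCommGroup Y]
    [NormedSpace ℝ Y] {f : ℝ → X × Y} {p : X × Y} {t : ℝ} (h : HasDerivAt f p t) :
    HasDerivAt (fun s => (f s).1) p.1 t := h.fst

lemma hd2 {X Y : Type} [NormedAddCommGroup X] [NormedSpace ℝ X] [NormedAddCommGroup Y]
    [NormedSpace ℝ Y] {f : ℝ → X × Y} {p : X × Y} {t : ℝ} (h : HasDerivAt f p t) :
    HasDerivAt (fun s => (f s).2) p.2 t := h.snd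

/-- An odd clamp. -/
lemma exists_clampO {r r' : ℝ} (hr : 0 < r) (hr' : r < r') : ∃ cl : ℝ → ℝ, ContDiff ℝ ∞ cl ∧
    (∀ x, |x| ≤ r → cl x = x) ∧ (∀ x, |cl x| < r') ∧ ∀ x, cl (-x) = -cl x := by
  let χ : ContDiffBump (0 : ℝ) := ⟨r, r', hr, hr'⟩
  refine ⟨fun x => χ x * x, χ.contDiff.mul contDiff_id, fun x hx => ?_, fun x => ?_, fun x => ?_⟩
  · have : χ x = 1 := χ.one_of_mem_closedBall (by simpa using hx)
    simp only [this, one_mul]
  · by_cases hx : |x| < r'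
    · have h0 : 0 ≤ χ x := χ.nonneg
      have h1 : χ x ≤ 1 := χ.le_one
      rw [abs_mul, abs_of_nonneg h0]
      nlinarith [abs_nonneg x]
    · have : χ x = 0 := χ.zero_of_le_dist (by simpa using hx)
      simp only [this, zero_mul, abs_zero]
      linarith
  · simp only [χ.neg, mul_neg]

/-- A clamp around an interval. -/
lemma exists_clampI {a b δ δ' : ℝ} (hab : a ≤ b) (h : 0 < δ) (h' : δ < δ') : ∃ cl : ℝ → ℝ,
    ContDiff ℝ ∞ cl ∧ (∀ x ∈ Icc (a - δ) (b + δ), cl x = x) ∧ ∀ x, cl x ∈ Ioo (a - δ') (b + δ') := by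
  obtain ⟨c, h1, h2, h3⟩ := exists_clampE ((a + b) / 2) (r := (b - a) / 2 + δ)
    (r' := (b - a) / 2 + δ') (by linarith) (by linarith)
  refine ⟨c, h1, fun x hx => h2 x ?_, fun x => ?_⟩
  · rw [Real.dist_eq, abs_le]
    constructor <;> linarith [hx.1, hx.2]
  · have := h3 x
    rw [Real.dist_eq, abs_lt] at this
    constructor <;> linarith [this.1, this.2]

lemma near_Icc {a b δ x : ℝ} (hab : a ≤ b) (hδ : 0 ≤ δ) (hx : x ∈ Icc (a - δ) (b + δ)) :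
    ∃ y ∈ Icc a b, dist x y ≤ δ := by
  rcases le_total x a with h | h
  · exact ⟨a, ⟨le_rfl, hab⟩, by rw [Real.dist_eq, abs_le]; constructor <;> linarith [hx.1]⟩
  rcases le_total x b with h' | h'
  · exact ⟨x, ⟨h, h'⟩, by simpa using hδ⟩
  · exact ⟨b, ⟨hab, le_rfl⟩, by rw [Real.dist_eq, abs_le]; constructor <;> linarith [hx.2]⟩

lemma tube {E : Type} [MetricSpace E] {U : Set (E × ℝ × ℝ × ℝ)} (hU : IsOpen U) (μ0 : E) {a b : ℝ}
    (hab : a ≤ b)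
    (h : ∀ r ∈ Icc a b, ∀ ζ ∈ Icc (-1 : ℝ) 1, ∀ z ∈ Icc (-1 : ℝ) 1, (μ0, r, ζ, z) ∈ U) :
    ∃ δ > 0, ∀ μ r ζ z, dist μ μ0 ≤ δ → r ∈ Icc (a - δ) (b + δ) → ζ ∈ Icc (-1 - δ) (1 + δ) →
      z ∈ Icc (-1 - δ) (1 + δ) → (μ, r, ζ, z) ∈ U := by
  have hK : IsCompact ({μ0} ×ˢ Icc a b ×ˢ Icc (-1 : ℝ) 1 ×ˢ Icc (-1 : ℝ) 1) :=
    isCompact_singleton.prod (isCompact_Icc.prod (isCompact_Icc.prod isCompact_Icc))
  obtain ⟨δ, hδ, h1⟩ := hK.exists_cthickening_subset_open hU (by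
    rintro ⟨μ, r, ζ, z⟩ ⟨rfl, h2, h3, h4⟩
    exact h r h2 ζ h3 z h4)
  refine ⟨δ, hδ, fun μ r ζ z k1 k2 k3 k4 => h1 ?_⟩
  obtain ⟨r', a1, a2⟩ := near_Icc hab hδ.le k2
  obtain ⟨ζ', b1, b2⟩ := near_Icc (by norm_num) hδ.le k3
  obtain ⟨z', c1, c2⟩ := near_Icc (by norm_num) hδ.le k4
  refine Metric.mem_cthickening_of_dist_le _ (μ0, r', ζ', z') _ _ ⟨rfl, a1, b1, c1⟩ ?_
  simp only [Prod.dist_eq, max_le_iff]
  exact ⟨k1, a2, b2, c2⟩

lemma tube2 {E : Type} [MetricSpace E] {U : Set (E × ℝ × ℝ)} (hU : IsOpen U) (μ0 : E) {a b : ℝ}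
    (hab : a ≤ b) (h : ∀ r ∈ Icc a b, ∀ ζ ∈ Icc (-1 : ℝ) 1, (μ0, r, ζ) ∈ U) :
    ∃ δ > 0, ∀ μ r ζ, dist μ μ0 ≤ δ → r ∈ Icc (a - δ) (b + δ) → ζ ∈ Icc (-1 - δ) (1 + δ) →
      (μ, r, ζ) ∈ U := by
  obtain ⟨δ, hδ, h1⟩ := tube (U := (fun x : E × ℝ × ℝ × ℝ => (x.1, x.2.1, x.2.2.1)) ⁻¹' U)
    (hU.preimage (by fun_prop)) μ0 hab fun r hr ζ hζ _ _ => h r hr ζ hζ
  exact ⟨δ, hδ, fun μ r ζ k1 k2 k3 => h1 μ r ζ ζ k1 k2 k3 k3⟩

lemma lip {f f' : ℝ → ℝ} {C : ℝ} (hf : ∀ t, HasDerivAt f (f' t) t) (hb : ∀ t, |f' t| ≤ C)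
    (s t : ℝ) : |f s - f t| ≤ C * |s - t| :=
  convex_univ.norm_image_sub_le_of_norm_hasDerivWithin_le (f := f) (f' := f')
    (fun x _ => (hf x).hasDerivWithinAt) (fun x _ => hb x) (mem_univ t) (mem_univ s)

lemma mono_of {f f' : ℝ → ℝ} {a b : ℝ} (hf : ∀ t ∈ Icc a b, HasDerivAt f (f' t) t)
    (h : ∀ t ∈ Icc a b, 0 ≤ f' t) {s : ℝ} (hs : s ∈ Icc a b) : f s ≤ f b :=
  monotoneOn_of_hasDerivWithinAt_nonneg (convex_Icc a b)
    (fun t ht => (hf t ht).continuousAt.continuousWithinAt)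
    (fun t ht => (hf t (interior_subset ht)).hasDerivWithinAt)
    (fun t ht => h t (interior_subset ht)) hs ⟨hs.1.trans hs.2, le_rfl⟩ hs.2

lemma pos_of {f : ℝ → ℝ} {a b : ℝ} (hf : ContinuousOn f (Icc a b)) (h : ∀ t ∈ Icc a b, f t ≠ 0)
    (hb : 0 < f b) {s : ℝ} (hs : s ∈ Icc a b) : 0 < f s := by
  by_contra h1
  obtain ⟨t, ht, e⟩ := intermediate_value_Icc hs.2 (hf.mono (Icc_subset_Icc_left hs.1))
    ⟨not_lt.1 h1, hb.le⟩
  exact h t ⟨hs.1.trans ht.1, ht.2⟩ e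

/-- The constants depend smoothly on a parameter. -/
structure SmP {X : Type} [NormedAddCommGroup X] [NormedSpace ℝ X] (P : X → Par) : Prop where
  a : ContDiff ℝ ∞ fun x => (P x).a
  m : ContDiff ℝ ∞ fun x => (P x).m
  R : ContDiff ℝ ∞ fun x => (P x).R
  k : ContDiff ℝ ∞ fun x => (P x).k

namespace SmP

variable {X : Type} [NormedAddCommGroup X] [NormedSpace ℝ X] {P : X → Par} (h : SmP P)
include h

lemma comp {Y : Type} [NormedAddCommGroup Y] [NormedSpace ℝ Y] {g : Y → X} (hg : ContDiff ℝ ∞ g) :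
    SmP fun y => P (g y) :=
  ⟨h.a.comp hg, h.m.comp hg, h.R.comp hg, h.k.comp hg⟩

lemma abs : ContDiff ℝ ∞ fun x => |(P x).a| :=
  h.a.abs fun x e => by have := (P x).a2_pos; rw [e] at this; simp at this

variable {f g z : X → ℝ} {s : Set X}

lemma Dl (hf : ContDiff ℝ ∞ f) : ContDiff ℝ ∞ (fun x => (P x).Dl (f x)) := by
  have := h.m
  have := h.R
  unfold Par.Dl
  fun_prop

lemma Q2 (hf : ContDiff ℝ ∞ f) (hg : ContDiff ℝ ∞ g) :
    ContDiff ℝ ∞ (fun x => (P x).Q2 (f x) (g x)) := by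
  have := h.a
  have := h.Dl hf
  unfold Par.Q2
  fun_prop

lemma qq (hf : ContDiff ℝ ∞ f) (hg : ContDiff ℝ ∞ g) (h1 : ∀ x ∈ s, 0 < (P x).Q2 (f x) (g x)) :
    ContDiffOn ℝ ∞ (fun x => (P x).qq (f x) (g x)) s :=
  (h.Q2 hf hg).contDiffOn.sqrt fun x hx => (h1 x hx).ne'

lemma GG (hf : ContDiff ℝ ∞ f) (hg : ContDiff ℝ ∞ g) (hz : ContDiff ℝ ∞ z)
    (h1 : ∀ x ∈ s, 0 < (P x).Q2 (f x) (g x)) (h2 : ∀ x ∈ s, 0 < (P x).Q2 (f x) (z x)) :
    ContDiffOn ℝ ∞ (fun x => (P x).GG (f x) (g x) (z x)) s := by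
  have k1 := h.qq hf hg h1
  have k2 := h.Q2 hf hz
  have := h.a
  have := h.m
  have := h.R
  have := h.k
  unfold Par.GG
  refine ContDiffOn.div (ContDiffOn.sub (ContDiffOn.add (by fun_prop) (ContDiffOn.div
    (by fun_prop) (by fun_prop) fun x hx => ?_)) (by fun_prop)) (by fun_prop) fun x hx => ?_
  · have := (P x).qq_pos (h1 x hx)
    have := (P x).a2_pos
    positivity
  · exact (mul_pos (P x).k_pos (h2 x hx)).ne'

lemma WW (hf : ContDiff ℝ ∞ f) (hz : ContDiff ℝ ∞ z) (h2 : ∀ x ∈ s, 0 < (P x).Q2 (f x) (z x)) :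
    ContDiffOn ℝ ∞ (fun x => (P x).WW (f x) (z x)) s := by
  have k2 := h.Q2 hf hz
  have k3 := h.Dl hf
  have := h.a
  have := h.m
  have := h.R
  unfold Par.WW
  exact ContDiffOn.div (by fun_prop) (by fun_prop) fun x hx =>
    (mul_pos (h2 x hx) (P x).m0_pos).ne'

end SmP

end Vale.Agent.P354RG
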